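import Vale.Agent.P042.H422.KapH

/-!
# P042, H2.7a: rows and rooted totals of the connected densities from the centred components

For a law `mu`, reference `lam`, `g = gr lam mu`, `hc g B = ∑_{A ⊆ B} (-1)^{|B∖A|} g_A`:
rows `hR` of order `≤ n` at most `A R^d` and totals `hT` at most `R^d` give rows of the connected
densities at most `A (d+1)! d! 4^d R^d`; the same for every weighted sum over the roots.
-/

set_option autoImplicit false
set_option linter.unusedSectionVars false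

namespace Vale.Agent.P042.H422

open Finset Vale.Agent.P042.H461 Vale.Agent.P042.H416 Vale.Agent.P042.H742
open Vale.Agent.P042.H779 (marg m1)
open Vale.Agent.P042.H482 (hc)

variable {ι : Type*} [Fintype ι] [DecidableEq ι] {V : ι → Type*} [∀ i, Fintype (V i)]
  [∀ i, DecidableEq (V i)]

theorem gr_dep (lam : ∀ i, V i → ℝ) (mu : (∀ i, V i) → ℝ) (A : Finset ι) :
    DependsOn (gr lam mu A) (A : Set ι) := by
  intro x y hxy
  have h1 : ∀ i ∈ A, x i = y i := fun i hi => hxy i (by exact_mod_cast hi)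
  unfold gr lw
  rw [Vale.Agent.P042.H779.marg_congr A h1, prod_congr rfl fun i hi => by rw [h1 i hi]]

theorem gr_empty (lam : ∀ i, V i → ℝ) {mu : (∀ i, V i) → ℝ} (hmu : IsLaw mu) (x : ∀ i, V i) :
    gr lam mu ∅ x = 1 := by
  have hp : Vale.Agent.P042.H779.IsProb mu := ⟨hmu.1, hmu.2⟩
  unfold gr lw
  rw [Vale.Agent.P042.H779.marg_empty hp, Finset.prod_empty, div_one]

/-- **H2.7a, one row**: no spread, no positivity of the rates -/
theorem row_of_h {lam : ∀ i, V i → ℝ} (h0 : ∀ i a, 0 ≤ lam i a) (h1 : ∀ i, ∑ a, lam i a = 1)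
    {t : ι → ℝ} (ht : ∀ i, 0 ≤ t i) {mu : (∀ i, V i) → ℝ} (hmu : IsLaw mu) {i : ι}
    {k : Finset ι → (∀ i, V i) → ℝ}
    (hkd : ∀ C : Finset ι, DependsOn (k C) ((insert i C : Finset ι) : Set ι))
    (hk : IsCumI lam mu i k) {a : V i} (ha : lam i a ≠ 0) {n : ℕ} {A R : ℝ} (hA0 : 0 ≤ A)
    (hR0 : 0 ≤ R) (hA : ∀ d ≤ n, hR lam t (gr lam mu) i a d ≤ A * R ^ d)
    (hN : ∀ e, 1 ≤ e → e ≤ n → hT lam t (gr lam mu) e ≤ R ^ e) {d : ℕ} (hd : 1 ≤ d)
    (hdn : d ≤ n) : rowQ lam t i a k d ≤ A * bet d * R ^ d := by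
  rw [← kR_eq_rowQ lam t k i a hd]
  exact close hA0 hR0 (K := kR lam t k i a) (A := hR lam t (gr lam mu) i a)
    (N := hT lam t (gr lam mu)) (kR_nonneg h0 ht k i a)
    (fun d _ => kR_rec h0 h1 ht (gr_dep lam mu) (gr_empty lam hmu) hkd
      (fun D hD _ x hx => hk D hD x hx) ha) hA hN d hdn

/-- **H2.7a, rooted totals**: any nonnegative weights `v` of the roots `(i, a)` carried by the
support of the reference -/
theorem tot_of_h {lam : ∀ i, V i → ℝ} (h0 : ∀ i a, 0 ≤ lam i a) (h1 : ∀ i, ∑ a, lam i a = 1)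
    {t : ι → ℝ} (ht : ∀ i, 0 ≤ t i) {mu : (∀ i, V i) → ℝ} (hmu : IsLaw mu)
    {k : ι → Finset ι → (∀ i, V i) → ℝ}
    (hkd : ∀ i, ∀ C : Finset ι, DependsOn (k i C) ((insert i C : Finset ι) : Set ι))
    (hk : ∀ i, IsCumI lam mu i (k i)) (S : Finset ι) {v : ∀ i, V i → ℝ}
    (hv : ∀ i a, 0 ≤ v i a) (hv0 : ∀ i a, lam i a = 0 → v i a = 0) {n : ℕ} {A R : ℝ}
    (hA0 : 0 ≤ A) (hR0 : 0 ≤ R)
    (hA : ∀ d ≤ n, ∑ i ∈ S, ∑ a, v i a * hR lam t (gr lam mu) i a d ≤ A * R ^ d)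
    (hN : ∀ e, 1 ≤ e → e ≤ n → hT lam t (gr lam mu) e ≤ R ^ e) {d : ℕ} (hd : 1 ≤ d)
    (hdn : d ≤ n) :
    ∑ i ∈ S, ∑ a, v i a * rowQ lam t i a (k i) d ≤ A * bet d * R ^ d := by
  have h2 := kap_rows h0 h1 ht (gr_dep lam mu) (gr_empty lam hmu) hkd (n := n)
    (fun i D hD _ x hx => hk i D hD x hx) S hv hv0 hA0 hR0 hA hN d hdn
  simp only [kR_eq_rowQ lam t _ _ _ hd] at h2
  exact h2

/-- the root averaged -/
theorem sum_lam_hR {lam : ∀ i, V i → ℝ} (h1 : ∀ i, ∑ a, lam i a = 1) (t : ι → ℝ)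
    (g : Finset ι → (∀ i, V i) → ℝ) (i : ι) (d : ℕ) :
    ∑ a, lam i a * hR lam t g i a d = ∑ D : Finset ι with D.card = d ∧ i ∉ D, (∏ j ∈ D, t j) *
      ∑ x, W lam x * hc g (insert i D) x ^ 2 := by
  unfold hR
  simp only [mul_sum]
  rw [sum_comm]
  refine sum_congr rfl fun D _ => ?_
  rw [sum_comm, ← mul_sum, ← sum_av' h1 i (fun x => hc g (insert i D) x ^ 2), mul_sum]
  refine sum_congr rfl fun x _ => ?_
  unfold av
  rw [mul_sum, mul_sum]
  exact sum_congr rfl fun a _ => by ring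

/-- the rooted totals are at most the totals, order by order -/
theorem rooted_le_hT {lam : ∀ i, V i → ℝ} (h0 : ∀ i a, 0 ≤ lam i a)
    (h1 : ∀ i, ∑ a, lam i a = 1) {t : ι → ℝ} (ht : ∀ i, 0 ≤ t i)
    (g : Finset ι → (∀ i, V i) → ℝ) (S : Finset ι) (d : ℕ) :
    ∑ i ∈ S, t i * ∑ a, lam i a * hR lam t g i a d ≤ ((d : ℝ) + 1) * hT lam t g (d + 1) := by
  have hF : ∀ B : Finset ι, 0 ≤ (∏ j ∈ B, t j) * ∑ x, W lam x * hc g B x ^ 2 := fun B =>
    mul_nonneg (prod_nonneg fun j _ => ht j)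
      (sum_nonneg fun x _ => mul_nonneg (W_nonneg h0 x) (sq_nonneg _))
  have h2 : ∀ i ∈ S, t i * ∑ a, lam i a * hR lam t g i a d =
      ∑ B : Finset ι with B.card = d + 1, if i ∈ B then
        (∏ j ∈ B, t j) * ∑ x, W lam x * hc g B x ^ 2 else 0 := by
    intro i _
    rw [sum_lam_hR h1, mul_sum, ← sum_filter, filter_filter]
    refine sum_bij' (fun D _ => insert i D) (fun B _ => B.erase i) ?_ ?_ ?_ ?_ ?_
    · intro D hD
      rw [mem_filter] at hD
      rw [mem_filter]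
      exact ⟨mem_univ _, by rw [card_insert_of_notMem hD.2.2, hD.2.1], mem_insert_self _ _⟩
    · intro B hB
      rw [mem_filter] at hB
      rw [mem_filter]
      exact ⟨mem_univ _, by rw [card_erase_of_mem hB.2.2, hB.2.1]; rfl, notMem_erase _ _⟩
    · intro D hD
      rw [mem_filter] at hD
      exact erase_insert hD.2.2
    · intro B hB
      rw [mem_filter] at hB
      exact insert_erase hB.2.2
    · intro D hD
      rw [mem_filter] at hD
      rw [prod_insert hD.2.2]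
      ring
  rw [sum_congr rfl h2, sum_comm]
  unfold hT
  rw [mul_sum]
  refine sum_le_sum fun B hB => ?_
  rw [mem_filter] at hB
  rw [← sum_filter, sum_const, nsmul_eq_mul]
  refine mul_le_mul_of_nonneg_right ?_ (hF B)
  have h3 : (S.filter fun i => i ∈ B).card ≤ B.card := by
    refine card_le_card fun i hi => ?_
    exact (mem_filter.1 hi).2
  rw [hB.2] at h3
  exact_mod_cast h3

end Vale.Agent.P042.H422
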