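import Vale.Agent.P042.H161.Mix
import Vale.Agent.P042.H422.KapF

/-!
# P042, branch III: change of the reference for the connected densities

`lam` (reference of [B] and of Theorem H: the state marginals, null classes allowed) and `lam2`
(reference of the kernels, e.g. uniform on the top sites), `lam ≤ rr * lam2`, `mu ≪ lam`. The connected
densities of order `≥ 2` are the same signed measures, hence the rows and the rooted totals pass
from `lam` to `lam2` with a factor `rr` per leg.
-/

set_option autoImplicit false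
set_option linter.unusedSectionVars false

namespace Vale.Agent.P042.H422

open Finset Vale.Agent.P042.H461 Vale.Agent.P042.H416 Vale.Agent.P042.H742 Vale.Agent.P042.H232
open Vale.Agent.P042.H779 (marg m1)
open Vale.Agent.P042.H161 (Rws Tots)

variable {ι : Type*} [Fintype ι] [DecidableEq ι] {V : ι → Type*} [∀ i, Fintype (V i)]
  [∀ i, DecidableEq (V i)]

/-- A function of the coordinates in `B` has the same mean for two references which agree on
`B`. -/
theorem W_agree {l1 l2 : ∀ i, V i → ℝ} (h1 : ∀ i, ∑ a, l1 i a = 1) (h2 : ∀ i, ∑ a, l2 i a = 1)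
    {B : Finset ι} (hB : ∀ j ∈ B, ∀ a, l1 j a = l2 j a) {F : (∀ i, V i) → ℝ}
    (hF : DependsOn F (B : Set ι)) : ∑ x, W l1 x * F x = ∑ x, W l2 x * F x := by
  have hL : ∑ x, W l1 x * F x =
      ∑ p : (∀ i, V i) × (∀ i, V i), W l1 p.1 * (W l2 p.2 * F p.1) := by
    rw [Fintype.sum_prod_type]
    refine sum_congr rfl fun x _ => ?_
    show W l1 x * F x = ∑ y, W l1 x * (W l2 y * F x)
    rw [← mul_sum, ← sum_mul, sum_W h2, one_mul]
  have hR' : ∑ x, W l2 x * F x =
      ∑ p : (∀ i, V i) × (∀ i, V i), W l1 p.1 * (W l2 p.2 * F p.2) := by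
    rw [Fintype.sum_prod_type, sum_comm]
    refine sum_congr rfl fun y _ => ?_
    show W l2 y * F y = ∑ x, W l1 x * (W l2 y * F y)
    rw [← sum_mul, sum_W h1, one_mul]
  rw [hL, hR']
  have hpp : ∀ x y : ∀ i, V i, B.piecewise (B.piecewise x y) (B.piecewise y x) = x := by
    intro x y
    funext i
    by_cases hi : i ∈ B <;> simp [hi]
  have hpq : ∀ x y : ∀ i, V i, B.piecewise (B.piecewise y x) (B.piecewise x y) = y := by
    intro x y
    funext i
    by_cases hi : i ∈ B <;> simp [hi]
  let e : (∀ i, V i) × (∀ i, V i) ≃ (∀ i, V i) × (∀ i, V i) :=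
    { toFun := fun p => (B.piecewise p.2 p.1, B.piecewise p.1 p.2)
      invFun := fun p => (B.piecewise p.2 p.1, B.piecewise p.1 p.2)
      left_inv := fun p => by
        obtain ⟨x, y⟩ := p
        exact Prod.ext (hpp x y) (hpq x y)
      right_inv := fun p => by
        obtain ⟨x, y⟩ := p
        exact Prod.ext (hpp x y) (hpq x y) }
  refine Fintype.sum_equiv e _ _ fun p => ?_
  obtain ⟨x, y⟩ := p
  simp only [e, Equiv.coe_fn_mk]
  have e1 : F (B.piecewise x y) = F x := hF fun j hj => by
    have hj' : j ∈ B := by simpa using hj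
    simp [hj']
  have e2 : W l1 (B.piecewise y x) * W l2 (B.piecewise x y) = W l1 x * W l2 y := by
    unfold W
    rw [← prod_mul_distrib, ← prod_mul_distrib]
    refine prod_congr rfl fun i _ => ?_
    by_cases hi : i ∈ B
    · simp only [piecewise_eq_of_mem _ _ _ hi]
      rw [hB i hi, hB i hi, mul_comm]
    · simp only [piecewise_eq_of_notMem _ _ _ hi]
  rw [e1, ← mul_assoc, ← mul_assoc, e2]

theorem W_ne' {l : ∀ i, V i → ℝ} {x : ∀ i, V i} (h : W l x ≠ 0) (i : ι) : l i (x i) ≠ 0 :=
  fun h1 => h (Finset.prod_eq_zero (Finset.mem_univ i) h1)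

/-- Two references of the law `mu`: `lam ≤ rr * lam2` and `mu ≪ lam` (null classes of `lam` are
allowed). -/
structure RefPair (lam lam2 : ∀ i, V i → ℝ) (mu : (∀ i, V i) → ℝ) (rr : ι → ℝ) : Prop where
  n1 : ∀ i a, 0 ≤ lam i a
  s1 : ∀ i, ∑ a, lam i a = 1
  n2 : ∀ i a, 0 ≤ lam2 i a
  s2 : ∀ i, ∑ a, lam2 i a = 1
  rr1 : ∀ i, 1 ≤ rr i
  le : ∀ i a, lam i a ≤ rr i * lam2 i a
  ac : ∀ i a, lam i a = 0 → m1 mu i a = 0
  m0 : ∀ x, 0 ≤ mu x
  m1' : ∑ x, mu x = 1

variable {lam lam2 : ∀ i, V i → ℝ} {rr : ι → ℝ} {mu : (∀ i, V i) → ℝ}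

theorem RefPair.prob (P : RefPair lam lam2 mu rr) : Vale.Agent.P042.H779.IsProb mu :=
  ⟨P.m0, P.m1'⟩

theorem gr_ref (P : RefPair lam lam2 mu rr) {x : ∀ i, V i} {A : Finset ι}
    (hx : ∀ j ∈ A, lam2 j (x j) ≠ 0) :
    gr lam2 mu A x = (∏ j ∈ A, lam j (x j) / lam2 j (x j)) * gr lam mu A x := by
  unfold gr lw
  rw [prod_div_distrib]
  have h2 : ∏ j ∈ A, lam2 j (x j) ≠ 0 := Finset.prod_ne_zero_iff.2 fun j hj => hx j hj
  by_cases h1 : ∏ j ∈ A, lam j (x j) = 0
  · obtain ⟨j, hj, h3⟩ := Finset.prod_eq_zero_iff.1 h1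
    have h4 : marg mu A x = 0 := by
      have h5 := Vale.Agent.P042.H779.marg_le_m1 P.prob hj x
      rw [P.ac j (x j) h3] at h5
      exact le_antisymm h5 (Vale.Agent.P042.H779.marg_nonneg P.prob A x)
    rw [h4]
    simp
  · field_simp

theorem kI_rec (h : ∑ x, mu x = 1) {i : ι} {D : Finset ι} (hi : i ∉ D) (x : ∀ i, V i) :
    gr lam mu (insert i D) x = ∑ C ∈ D.powerset, kI lam mu i C x * gr lam mu (D \ C) x := by
  have h1 := (isCumC_Mg (lam := lam) h).cons ⟨i, x i⟩ (tup D x)
  rw [← tup_insert hi, Mg_tup, sp_tup] at h1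
  rw [h1]
  refine Finset.sum_congr rfl fun C _ => ?_
  rw [Mg_tup]
  rfl

theorem kI_ref (P : RefPair lam lam2 mu rr) {i : ι} {x : ∀ i, V i} (B : Finset ι) (hi : i ∉ B)
    (hx : ∀ j ∈ insert i B, lam2 j (x j) ≠ 0) :
    kI lam2 mu i B x = (∏ j ∈ insert i B, lam j (x j) / lam2 j (x j)) * kI lam mu i B x := by
  have hmu := P.m1'
  have g0 : ∀ l : ∀ i, V i → ℝ, gr l mu ∅ x = 1 := by
    intro l
    unfold gr lw marg
    simp [hmu]
  induction B using Finset.strongInduction with
  | H B ih =>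
    have h1 := kI_rec (lam := lam) hmu hi x
    have h2 := kI_rec (lam := lam2) hmu hi x
    rw [gr_ref P hx, h1] at h2
    have hspl : ∀ f : Finset ι → ℝ, ∑ C ∈ B.powerset, f C = f B + ∑ C ∈ B.ssubsets, f C := by
      intro f
      rw [← Finset.insert_erase (mem_powerset_self B), sum_insert (notMem_erase _ _)]
      rfl
    rw [hspl, hspl, Finset.sdiff_self, g0, g0, mul_one, mul_one] at h2
    have h3 : ∑ C ∈ B.ssubsets, kI lam2 mu i C x * gr lam2 mu (B \ C) x =
        (∏ j ∈ insert i B, lam j (x j) / lam2 j (x j)) *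
          ∑ C ∈ B.ssubsets, kI lam mu i C x * gr lam mu (B \ C) x := by
      rw [mul_sum]
      refine sum_congr rfl fun C hC => ?_
      have hCB := mem_ssubsets.1 hC
      have hxC : ∀ j ∈ insert i C, lam2 j (x j) ≠ 0 := fun j hj =>
        hx j (insert_subset_insert i hCB.1 hj)
      have hxD : ∀ j ∈ B \ C, lam2 j (x j) ≠ 0 := fun j hj =>
        hx j (mem_insert_of_mem (mem_sdiff.1 hj).1)
      rw [ih C hCB (fun h => hi (hCB.1 h)) hxC, gr_ref P hxD]
      have h4 : ∏ j ∈ insert i B, lam j (x j) / lam2 j (x j) =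
          (∏ j ∈ insert i C, lam j (x j) / lam2 j (x j)) *
            ∏ j ∈ B \ C, lam j (x j) / lam2 j (x j) := by
        rw [prod_insert hi, prod_insert (fun h => hi (hCB.1 h)), ← prod_sdiff hCB.1]
        ring
      rw [h4]
      ring
    rw [h3] at h2
    linarith

/-- **The squared rows.** -/
theorem QI_ref (P : RefPair lam lam2 mu rr) {ρ : ι → ℝ} (hρ : ∀ i, 0 ≤ ρ i) (e : ℕ) {i : ι}
    {a : V i} (ha2 : lam2 i a ≠ 0) :
    QI lam2 mu ρ e i a ≤
      (lam i a / lam2 i a) ^ 2 * QI lam mu (fun j => rr j * ρ j) e i a := by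
  unfold QI
  rw [mul_sum]
  refine sum_le_sum fun B hB => ?_
  have hiB : i ∉ B := fun h => by
    have := (Finset.mem_powersetCard.1 hB).1 h
    simp at this
  set r : ∀ i, V i → ℝ := fun i a => lam i a / lam2 i a with hr
  have hr0 : ∀ i a, 0 ≤ r i a := fun i a => div_nonneg (P.n1 i a) (P.n2 i a)
  have hrr : ∀ i a, r i a ≤ rr i := by
    intro i a
    rcases (P.n2 i a).eq_or_lt with h | h
    · simp only [hr]
      rw [← h, div_zero]
      linarith [P.rr1 i]
    · simp only [hr]
      rw [div_le_iff₀ h]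
      exact P.le i a
  set F : (∀ i, V i) → ℝ := fun x => kI lam mu i B (Function.update x i a) ^ 2 with hF
  have hFd : DependsOn F (B : Set ι) := by
    intro x y hxy
    simp only [hF]
    have h1 : kI lam mu i B (Function.update x i a) = kI lam mu i B (Function.update y i a) := by
      refine Vale.Agent.P042.H365.kI_dep (lam := lam) (mu := mu) i B fun j hj => ?_
      by_cases hji : j = i
      · subst hji
        simp
      · rw [Function.update_of_ne hji, Function.update_of_ne hji]
        refine hxy j ?_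
        have : j ∈ insert i B := by simpa using hj
        rw [Finset.mem_insert] at this
        exact_mod_cast this.resolve_left hji
    rw [h1]
  set lB : ∀ i, V i → ℝ := fun j a => if j ∈ B then lam j a else lam2 j a with hlB
  have hlB1 : ∀ i, ∑ a, lB i a = 1 := by
    intro j
    by_cases hj : j ∈ B
    · simp only [hlB, hj, if_true]
      exact P.s1 j
    · simp only [hlB, hj, if_false]
      exact P.s2 j
  have hWB : ∀ x, W lam2 x * ∏ j ∈ B, r j (x j) = W lB x := by
    intro x
    have h1 : ∏ j ∈ B, r j (x j) = ∏ j, if j ∈ B then r j (x j) else 1 := by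
      rw [Finset.prod_ite_mem, univ_inter]
    rw [h1]
    unfold W
    rw [← prod_mul_distrib]
    refine prod_congr rfl fun j _ => ?_
    by_cases hj : j ∈ B
    · simp only [hlB, hj, if_true, hr]
      rcases eq_or_ne (lam2 j (x j)) 0 with h | h
      · have h2 := P.le j (x j)
        rw [h, mul_zero] at h2
        rw [h, zero_mul]
        exact (le_antisymm h2 (P.n1 j (x j))).symm
      · rw [mul_div_cancel₀ _ h]
    · simp only [hlB, hj, if_false, mul_one]
  have key : ∀ x, W lam2 x * kI lam2 mu i B (Function.update x i a) ^ 2 ≤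
      r i a ^ 2 * ((∏ j ∈ B, rr j) * (W lB x * F x)) := by
    intro x
    have hW2 := W_nonneg P.n2 x
    have hp0 : 0 ≤ ∏ j ∈ B, r j (x j) := prod_nonneg fun j _ => hr0 j _
    have hp1 : ∏ j ∈ B, r j (x j) ≤ ∏ j ∈ B, rr j := prod_le_prod (fun j _ => hr0 j _)
      fun j _ => hrr j _
    rcases eq_or_ne (W lam2 x) 0 with h | h
    · rw [h, zero_mul]
      have h2 : W lB x = 0 := by rw [← hWB, h, zero_mul]
      rw [h2]
      simp
    · have hxx : ∀ j ∈ insert i B, lam2 j (Function.update x i a j) ≠ 0 := by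
        intro j _
        by_cases hji : j = i
        · subst hji
          rw [Function.update_self]
          exact ha2
        · rw [Function.update_of_ne hji]
          exact W_ne' h j
      rw [kI_ref P B hiB hxx, prod_insert hiB, Function.update_self]
      have h5 : ∏ j ∈ B, lam j (Function.update x i a j) / lam2 j (Function.update x i a j) =
          ∏ j ∈ B, r j (x j) := by
        refine prod_congr rfl fun j hj => ?_
        have hji : j ≠ i := by
          rintro rfl
          exact hiB hj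
        rw [Function.update_of_ne hji]
      rw [h5]
      calc W lam2 x * (lam i a / lam2 i a * (∏ j ∈ B, r j (x j)) *
            kI lam mu i B (Function.update x i a)) ^ 2
          = r i a ^ 2 * ((∏ j ∈ B, r j (x j)) * ((W lam2 x * ∏ j ∈ B, r j (x j)) * F x)) := by
            simp only [hr, hF]
            ring
        _ ≤ r i a ^ 2 * ((∏ j ∈ B, rr j) * ((W lam2 x * ∏ j ∈ B, r j (x j)) * F x)) := by
            refine mul_le_mul_of_nonneg_left (mul_le_mul_of_nonneg_right hp1 ?_) (sq_nonneg _)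
            exact mul_nonneg (mul_nonneg hW2 hp0) (sq_nonneg _)
        _ = _ := by rw [hWB]
  have h6 := sum_le_sum fun x (_ : x ∈ (univ : Finset (∀ i, V i))) => key x
  rw [← mul_sum, ← mul_sum, W_agree hlB1 P.s1 (fun j hj a => by simp only [hlB, hj, if_true])
    hFd] at h6
  have hρB : 0 ≤ ∏ j ∈ B, ρ j := prod_nonneg fun j _ => hρ j
  calc (∏ j ∈ B, ρ j) * ∑ x, W lam2 x * kI lam2 mu i B (Function.update x i a) ^ 2
      ≤ (∏ j ∈ B, ρ j) * (r i a ^ 2 * ((∏ j ∈ B, rr j) * ∑ x, W lam x * F x)) :=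
        mul_le_mul_of_nonneg_left h6 hρB
    _ = _ := by
        rw [prod_mul_distrib]
        simp only [hr, hF]
        ring

theorem RefPair.ratio (P : RefPair lam lam2 mu rr) (i : ι) (a : V i) :
    0 ≤ lam i a / lam2 i a ∧ lam i a / lam2 i a ≤ rr i := by
  refine ⟨div_nonneg (P.n1 i a) (P.n2 i a), ?_⟩
  rcases (P.n2 i a).eq_or_lt with h | h
  · rw [← h, div_zero]
    linarith [P.rr1 i]
  · rw [div_le_iff₀ h]
    exact P.le i a

theorem rates_eq (P : RefPair lam lam2 mu rr) (r : ι → ℝ) :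
    (fun j => rr j * (r j / rr j)) = r := by
  funext j
  have : rr j ≠ 0 := by
    have := P.rr1 j
    linarith
  rw [mul_div_cancel₀ _ this]

/-- **Rows: change of the reference.** -/
theorem Rws.ref {r K : ι → ℝ} {θ : ℝ} {D0 : ℕ} (h : Rws lam mu r K θ D0)
    (P : RefPair lam lam2 mu rr) :
    Rws lam2 mu (fun i => r i / rr i) (fun i => rr i * K i) θ D0 where
  r0 i := div_nonneg (h.r0 i) (by linarith [P.rr1 i])
  K0 i := mul_nonneg (by linarith [P.rr1 i]) (h.K0 i)
  th := h.th
  row i a ha2 e he heD := by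
    have h1 := QI_ref P (ρ := fun i => r i / rr i)
      (fun j => div_nonneg (h.r0 j) (by linarith [P.rr1 j])) e ha2
    rw [rates_eq P] at h1
    obtain ⟨h5, h4⟩ := P.ratio i a
    have h7 : 0 ≤ (rr i * K i) ^ 2 * (e.factorial * θ ^ (2 * e)) := by
      have := h.th
      positivity
    rcases eq_or_ne (lam i a) 0 with ha | ha
    · rw [ha, zero_div] at h1
      refine h1.trans ?_
      simpa using h7
    have h3 := h.row i a ha e he heD
    have h6 : (lam i a / lam2 i a) ^ 2 ≤ rr i ^ 2 := pow_le_pow_left₀ h5 h4 2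
    calc QI lam2 mu (fun i => r i / rr i) e i a ≤ (lam i a / lam2 i a) ^ 2 * QI lam mu r e i a := h1
      _ ≤ rr i ^ 2 * (K i ^ 2 * (e.factorial * θ ^ (2 * e))) :=
        mul_le_mul h6 h3 (QI_nonneg P.n1 h.r0 e i a) (sq_nonneg _)
      _ = _ := by ring

/-- **Rooted totals: change of the reference.** -/
theorem Tots.ref {r s : ι → ℝ} {S : Finset ι} {A θ : ℝ} {D0 : ℕ} (h : Tots lam mu r s S A θ D0)
    (P : RefPair lam lam2 mu rr) (hr : ∀ i, 0 ≤ r i) (hs : ∀ i, 0 ≤ s i) :
    Tots lam2 mu (fun i => r i / rr i) (fun i => s i / rr i) S A θ D0 := by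
  intro e he heD
  refine le_trans ?_ (h e he heD)
  refine sum_le_sum fun i _ => ?_
  have hri : 0 < rr i := by linarith [P.rr1 i]
  have h3 : ∀ a, lam2 i a * QI lam2 mu (fun i => r i / rr i) e i a ≤
      rr i * (lam i a * QI lam mu r e i a) := by
    intro a
    have hQ := QI_nonneg (lam := lam) (mu := mu) P.n1 hr e i a
    rcases eq_or_ne (lam2 i a) 0 with h4 | h4
    · rw [h4, zero_mul]
      exact mul_nonneg hri.le (mul_nonneg (P.n1 i a) hQ)
    · have h1 := QI_ref P (ρ := fun i => r i / rr i)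
        (fun j => div_nonneg (hr j) (by linarith [P.rr1 j])) e h4
      rw [rates_eq P] at h1
      have hpos : 0 < lam2 i a := lt_of_le_of_ne (P.n2 i a) (Ne.symm h4)
      calc lam2 i a * QI lam2 mu (fun i => r i / rr i) e i a
          ≤ lam2 i a * ((lam i a / lam2 i a) ^ 2 * QI lam mu r e i a) :=
            mul_le_mul_of_nonneg_left h1 hpos.le
        _ = (lam i a / lam2 i a) * (lam i a * QI lam mu r e i a) := by
            field_simp
        _ ≤ rr i * (lam i a * QI lam mu r e i a) :=
            mul_le_mul_of_nonneg_right (P.ratio i a).2 (mul_nonneg (P.n1 i a) hQ)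
  calc s i / rr i * ∑ a, lam2 i a * QI lam2 mu (fun i => r i / rr i) e i a
      ≤ s i / rr i * ∑ a, rr i * (lam i a * QI lam mu r e i a) :=
        mul_le_mul_of_nonneg_left (sum_le_sum fun a _ => h3 a) (div_nonneg (hs i) hri.le)
    _ = s i * ∑ a, lam i a * QI lam mu r e i a := by
        rw [← mul_sum]
        field_simp

end Vale.Agent.P042.H422
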