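import Vale.Agent.P042.H742.RowB
import Vale.Agent.P042.H482.Trunc

/-!
# P042, H2.7a: energies of the connected densities from the energies of the centred components

`h_{i+D} = ∑_{C ⊆ D} kappa_{i+C} h_{D∖C}`, hence the rows of `kappa` are bounded by the rows and the
totals of `h`, order by order, with loss `(d+1)! d! 4^d` only. Arbitrary reference `lam`, arbitrary
nonnegative weights `t`.
-/

set_option autoImplicit false
set_option linter.unusedSectionVars false

namespace Vale.Agent.P042.H422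

open Finset Vale.Agent.P042.H461 Vale.Agent.P042.H416 Vale.Agent.P042.H742
open Vale.Agent.P042.H779 (marg m1)
open Vale.Agent.P042.H482 (hc)

section algebra

variable {ι : Type*} [Fintype ι] [DecidableEq ι] {V : ι → Type*}

/-- the two ways of summing over `C ⊆ A ⊆ D` -/
theorem sum_conv (D : Finset ι) (F : Finset ι → Finset ι → ℝ) :
    ∑ A ∈ D.powerset, ∑ C ∈ A.powerset, F C (A \ C) =
      ∑ C ∈ D.powerset, ∑ E ∈ (D \ C).powerset, F C E := by
  rw [Finset.sum_sigma', Finset.sum_sigma']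
  refine Finset.sum_bij' (fun q _ => ⟨q.2, q.1 \ q.2⟩) (fun q _ => ⟨q.1 ∪ q.2, q.1⟩) ?_ ?_ ?_ ?_ ?_
  · rintro ⟨A, C⟩ hq
    simp only [mem_sigma, mem_powerset] at hq ⊢
    exact ⟨hq.2.trans hq.1, sdiff_subset_sdiff hq.1 (Subset.refl _)⟩
  · rintro ⟨C, E⟩ hq
    simp only [mem_sigma, mem_powerset] at hq ⊢
    exact ⟨union_subset hq.1 (hq.2.trans sdiff_subset), subset_union_left⟩
  · rintro ⟨A, C⟩ hq
    simp only [mem_sigma, mem_powerset] at hq
    simp only [union_sdiff_of_subset hq.2]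
  · rintro ⟨C, E⟩ hq
    simp only [mem_sigma, mem_powerset] at hq
    have hdis : Disjoint E C := disjoint_of_subset_left hq.2 sdiff_disjoint
    have h1 : (C ∪ E) \ C = E := by
      rw [union_sdiff_left, sdiff_eq_self_of_disjoint hdis]
    simp only [h1]
  · rintro ⟨A, C⟩ _
    rfl

theorem hc_insert_add (g : Finset ι → (∀ i, V i) → ℝ) {D : Finset ι} {i : ι} (hi : i ∉ D)
    (x : ∀ i, V i) :
    hc g (insert i D) x + hc g D x =
      ∑ A ∈ D.powerset, (-1 : ℝ) ^ (D.card - A.card) * g (insert i A) x := by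
  unfold hc
  rw [sum_powerset_insert hi, add_comm, ← add_assoc]
  have h1 : ∑ A ∈ D.powerset, (-1 : ℝ) ^ (D.card - A.card) * g A x +
      ∑ A ∈ D.powerset, (-1 : ℝ) ^ ((insert i D).card - A.card) * g A x = 0 := by
    rw [← sum_add_distrib]
    refine sum_eq_zero fun A hA => ?_
    have hA' := card_le_card (mem_powerset.mp hA)
    rw [card_insert_of_notMem hi, show D.card + 1 - A.card = (D.card - A.card) + 1 by omega,
      pow_succ]
    ring
  rw [h1, zero_add]
  refine sum_congr rfl fun A hA => ?_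
  have hiA : i ∉ A := fun h => hi (mem_powerset.mp hA h)
  rw [card_insert_of_notMem hi, card_insert_of_notMem hiA,
    show D.card + 1 - (A.card + 1) = D.card - A.card by omega]

/-- the recursion for the densities gives the recursion for the components -/
theorem hc_conv {g k : Finset ι → (∀ i, V i) → ℝ} {i : ι} {D : Finset ι} (hi : i ∉ D)
    {x : ∀ i, V i}
    (hk : ∀ A, A ⊆ D → g (insert i A) x = ∑ C ∈ A.powerset, k C x * g (A \ C) x) :
    hc g (insert i D) x + hc g D x = ∑ C ∈ D.powerset, k C x * hc g (D \ C) x := by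
  rw [hc_insert_add g hi]
  have h1 : ∑ A ∈ D.powerset, (-1 : ℝ) ^ (D.card - A.card) * g (insert i A) x =
      ∑ A ∈ D.powerset, ∑ C ∈ A.powerset,
        (fun C E => (-1 : ℝ) ^ ((D \ C).card - E.card) * (k C x * g E x)) C (A \ C) := by
    refine sum_congr rfl fun A hA => ?_
    have hA' := mem_powerset.mp hA
    rw [hk A hA', mul_sum]
    refine sum_congr rfl fun C hC => ?_
    have hC' := mem_powerset.mp hC
    have e1 : (D \ C).card - (A \ C).card = D.card - A.card := by
      rw [card_sdiff_of_subset (hC'.trans hA'), card_sdiff_of_subset hC']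
      have := card_le_card hA'
      have := card_le_card hC'
      omega
    simp only [e1]
  rw [h1, sum_conv D (fun C E => (-1 : ℝ) ^ ((D \ C).card - E.card) * (k C x * g E x))]
  refine sum_congr rfl fun C _ => ?_
  unfold hc
  rw [mul_sum]
  refine sum_congr rfl fun E _ => ?_
  ring

/-- the connected densities, centred at order zero -/
noncomputable def kc (k : Finset ι → (∀ i, V i) → ℝ) (C : Finset ι) (x : ∀ i, V i) : ℝ :=
  k C x - if C = ∅ then 1 else 0

theorem kc_of_ne {k : Finset ι → (∀ i, V i) → ℝ} {C : Finset ι} (h : C ≠ ∅) (x : ∀ i, V i) :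
    kc k C x = k C x := by
  unfold kc
  rw [if_neg h, sub_zero]

theorem kc_conv {g k : Finset ι → (∀ i, V i) → ℝ} {i : ι} {D : Finset ι} (hi : i ∉ D)
    {x : ∀ i, V i}
    (hk : ∀ A, A ⊆ D → g (insert i A) x = ∑ C ∈ A.powerset, k C x * g (A \ C) x) :
    hc g (insert i D) x = ∑ C ∈ D.powerset, kc k C x * hc g (D \ C) x := by
  have h1 := hc_conv hi hk
  have h2 : ∑ C ∈ D.powerset, kc k C x * hc g (D \ C) x =
      ∑ C ∈ D.powerset, k C x * hc g (D \ C) x - hc g D x := by
    unfold kc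
    simp only [sub_mul]
    rw [sum_sub_distrib]
    congr 1
    rw [sum_eq_single ∅]
    · simp
    · intro C _ hC
      rw [if_neg hC, zero_mul]
    · intro h
      exact absurd (empty_mem_powerset D) h
  rw [h2, ← h1]
  ring

/-- order by order -/
theorem kc_eq {g k : Finset ι → (∀ i, V i) → ℝ} {i : ι} {D : Finset ι} (hi : i ∉ D)
    {x : ∀ i, V i} (hg : g ∅ x = 1)
    (hk : ∀ A, A ⊆ D → g (insert i A) x = ∑ C ∈ A.powerset, k C x * g (A \ C) x) :
    kc k D x = hc g (insert i D) x -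
      ∑ c ∈ range D.card, ∑ C ∈ powersetCard c D, kc k C x * hc g (D \ C) x := by
  have h1 := kc_conv hi hk
  rw [Finset.sum_powerset, sum_range_succ, powersetCard_self, sum_singleton, sdiff_self] at h1
  have h2 : hc g (⊥ : Finset ι) x = 1 := by
    unfold hc
    simp [hg]
  rw [h2, mul_one] at h1
  rw [h1]
  ring

end algebra

section energy

variable {ι : Type*} [Fintype ι] [DecidableEq ι] {V : ι → Type*} [∀ i, Fintype (V i)]
  [∀ i, DecidableEq (V i)]

/-- gluing two independent samples of the reference -/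
theorem glue {lam : ∀ i, V i → ℝ} (h1 : ∀ i, ∑ a, lam i a = 1) (J : Finset ι)
    (f : (∀ i, V i) → ℝ) :
    ∑ x, W lam x * ∑ y, W lam y * f (J.piecewise x y) = ∑ z, W lam z * f z := by
  have hL : ∑ x, W lam x * ∑ y, W lam y * f (J.piecewise x y) =
      ∑ p : (∀ i, V i) × (∀ i, V i), W lam p.1 * (W lam p.2 * f (J.piecewise p.1 p.2)) := by
    rw [Fintype.sum_prod_type]
    exact sum_congr rfl fun x _ => by rw [mul_sum]
  have hR' : ∑ z, W lam z * f z =
      ∑ p : (∀ i, V i) × (∀ i, V i), W lam p.1 * (W lam p.2 * f p.1) := by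
    rw [Fintype.sum_prod_type]
    refine sum_congr rfl fun x _ => ?_
    show W lam x * f x = ∑ y, W lam x * (W lam y * f x)
    rw [← mul_sum, ← sum_mul, sum_W h1, one_mul]
  rw [hL, hR']
  have hpp : ∀ x y : ∀ i, V i, J.piecewise (J.piecewise x y) (J.piecewise y x) = x := by
    intro x y
    funext i
    by_cases hi : i ∈ J <;> simp [hi]
  let e : (∀ i, V i) × (∀ i, V i) ≃ (∀ i, V i) × (∀ i, V i) :=
    { toFun := fun p => (J.piecewise p.1 p.2, J.piecewise p.2 p.1)
      invFun := fun p => (J.piecewise p.1 p.2, J.piecewise p.2 p.1)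
      left_inv := fun p => by simp only [hpp]
      right_inv := fun p => by simp only [hpp] }
  refine Fintype.sum_equiv e _ _ fun p => ?_
  obtain ⟨x, y⟩ := p
  simp only [e, Equiv.coe_fn_mk]
  have h1 : W lam (J.piecewise x y) * W lam (J.piecewise y x) = W lam x * W lam y := by
    unfold W
    rw [← prod_mul_distrib, ← prod_mul_distrib]
    refine prod_congr rfl fun i _ => ?_
    by_cases hi : i ∈ J
    · simp [hi]
    · simp [hi, mul_comm]
  rw [← mul_assoc, ← mul_assoc, h1]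

/-- independence under the product reference -/
theorem W_indep {lam : ∀ i, V i → ℝ} (h1 : ∀ i, ∑ a, lam i a = 1) {S T : Finset ι}
    (hST : Disjoint S T) {F G : (∀ i, V i) → ℝ} (hF : DependsOn F (S : Set ι))
    (hG : DependsOn G (T : Set ι)) :
    ∑ x, W lam x * (F x * G x) = (∑ x, W lam x * F x) * ∑ x, W lam x * G x := by
  rw [← glue h1 S (fun x => F x * G x), sum_mul]
  refine sum_congr rfl fun x _ => ?_
  have key : ∑ y, W lam y * (F (S.piecewise x y) * G (S.piecewise x y)) =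
      F x * ∑ y, W lam y * G y := by
    rw [mul_sum]
    refine sum_congr rfl fun y _ => ?_
    have e1 : F (S.piecewise x y) = F x := hF fun j hj => by
      have hj' : j ∈ S := by simpa using hj
      simp [hj']
    have e2 : G (S.piecewise x y) = G y := hG fun j hj => by
      have hj' : j ∈ T := by simpa using hj
      have hj2 : j ∉ S := fun h => (Finset.disjoint_left.1 hST) h hj'
      simp [hj2]
    rw [e1, e2]
    ring
  show W lam x * ∑ y, W lam y * (F (S.piecewise x y) * G (S.piecewise x y)) = _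
  rw [key]
  ring

/-- the rows of the centred components -/
noncomputable def hR (lam : ∀ i, V i → ℝ) (t : ι → ℝ) (g : Finset ι → (∀ i, V i) → ℝ) (i : ι)
    (a : V i) (d : ℕ) : ℝ :=
  ∑ D : Finset ι with D.card = d ∧ i ∉ D, (∏ j ∈ D, t j) *
    ∑ x, W lam x * hc g (insert i D) (Function.update x i a) ^ 2

/-- the totals of the centred components -/
noncomputable def hT (lam : ∀ i, V i → ℝ) (t : ι → ℝ) (g : Finset ι → (∀ i, V i) → ℝ)
    (d : ℕ) : ℝ :=
  ∑ D : Finset ι with D.card = d, (∏ j ∈ D, t j) * ∑ x, W lam x * hc g D x ^ 2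

/-- the rows of the connected densities -/
noncomputable def kR (lam : ∀ i, V i → ℝ) (t : ι → ℝ) (k : Finset ι → (∀ i, V i) → ℝ) (i : ι)
    (a : V i) (d : ℕ) : ℝ :=
  ∑ D : Finset ι with D.card = d ∧ i ∉ D, (∏ j ∈ D, t j) *
    ∑ x, W lam x * kc k D (Function.update x i a) ^ 2

theorem kR_eq_rowQ (lam : ∀ i, V i → ℝ) (t : ι → ℝ) (k : Finset ι → (∀ i, V i) → ℝ) (i : ι)
    (a : V i) {d : ℕ} (hd : 1 ≤ d) : kR lam t k i a d = rowQ lam t i a k d := by
  unfold kR rowQ
  refine sum_congr rfl fun D hD => ?_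
  rw [mem_filter] at hD
  have hne : D ≠ ∅ := by
    rintro rfl
    have := hD.2.1
    simp at this
    omega
  refine congrArg _ (sum_congr rfl fun x _ => ?_)
  rw [kc_of_ne hne]

theorem hR_nonneg {lam : ∀ i, V i → ℝ} (h0 : ∀ i a, 0 ≤ lam i a) {t : ι → ℝ}
    (ht : ∀ i, 0 ≤ t i) (g : Finset ι → (∀ i, V i) → ℝ) (i : ι) (a : V i) (d : ℕ) :
    0 ≤ hR lam t g i a d :=
  sum_nonneg fun _ _ => mul_nonneg (prod_nonneg fun j _ => ht j)
    (sum_nonneg fun x _ => mul_nonneg (W_nonneg h0 x) (sq_nonneg _))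

theorem kR_nonneg {lam : ∀ i, V i → ℝ} (h0 : ∀ i a, 0 ≤ lam i a) {t : ι → ℝ}
    (ht : ∀ i, 0 ≤ t i) (k : Finset ι → (∀ i, V i) → ℝ) (i : ι) (a : V i) (d : ℕ) :
    0 ≤ kR lam t k i a d :=
  sum_nonneg fun _ _ => mul_nonneg (prod_nonneg fun j _ => ht j)
    (sum_nonneg fun x _ => mul_nonneg (W_nonneg h0 x) (sq_nonneg _))

theorem hT_nonneg {lam : ∀ i, V i → ℝ} (h0 : ∀ i a, 0 ≤ lam i a) {t : ι → ℝ}
    (ht : ∀ i, 0 ≤ t i) (g : Finset ι → (∀ i, V i) → ℝ) (d : ℕ) :
    0 ≤ hT lam t g d :=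
  sum_nonneg fun _ _ => mul_nonneg (prod_nonneg fun j _ => ht j)
    (sum_nonneg fun x _ => mul_nonneg (W_nonneg h0 x) (sq_nonneg _))

/-- Cauchy-Schwarz for the recursion -/
theorem cs1 (a : ℝ) (b : ℕ → ℝ) (d : ℕ) :
    (a - ∑ c ∈ range d, b c) ^ 2 ≤ (d + 1) * (a ^ 2 + ∑ c ∈ range d, b c ^ 2) := by
  have h1 := sq_sum_le_card_mul_sum_sq (s := range (d + 1))
    (f := fun c => if c = d then a else -b c)
  rw [sum_range_succ, sum_range_succ, card_range] at h1
  have h2 : ∑ c ∈ range d, (if c = d then a else -b c) = -∑ c ∈ range d, b c := by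
    rw [← sum_neg_distrib]
    refine sum_congr rfl fun c hc => ?_
    rw [if_neg (ne_of_lt (mem_range.1 hc))]
  have h3 : ∑ c ∈ range d, (if c = d then a else -b c) ^ 2 = ∑ c ∈ range d, b c ^ 2 := by
    refine sum_congr rfl fun c hc => ?_
    rw [if_neg (ne_of_lt (mem_range.1 hc))]
    ring
  rw [h2, h3, if_pos rfl] at h1
  push_cast at h1
  have h4 : (a - ∑ c ∈ range d, b c) ^ 2 = (-∑ c ∈ range d, b c + a) ^ 2 := by ring
  rw [h4, add_comm (a ^ 2)]
  exact h1

/-- the count of pairs -/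
theorem pairs_le {d c : ℕ} {i : ι} {F G : Finset ι → ℝ} (hF : ∀ C, 0 ≤ F C)
    (hG : ∀ C, 0 ≤ G C) :
    ∑ D : Finset ι with D.card = d ∧ i ∉ D, ∑ C ∈ powersetCard c D, F C * G (D \ C) ≤
      (∑ C : Finset ι with C.card = c ∧ i ∉ C, F C) * ∑ E : Finset ι with E.card = d - c, G E := by
  rw [sum_mul_sum, ← sum_product', sum_sigma']
  have hinj : Set.InjOn (fun q : (_ : Finset ι) × Finset ι => (q.2, q.1 \ q.2))
      (((univ.filter fun D : Finset ι => D.card = d ∧ i ∉ D).sigma fun D => powersetCard c D :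
        Finset ((_ : Finset ι) × Finset ι)) : Set ((_ : Finset ι) × Finset ι)) := by
    rintro ⟨D, C⟩ h ⟨D', C'⟩ h' he
    simp only [coe_sigma, Set.mem_sigma_iff, mem_coe, mem_powersetCard] at h h'
    simp only [Prod.mk.injEq] at he
    obtain ⟨rfl, he⟩ := he
    have e1 : D = D' := by
      rw [← union_sdiff_of_subset h.2.1, he, union_sdiff_of_subset h'.2.1]
    subst e1
    rfl
  have h1 : ∑ q ∈ (univ.filter fun D : Finset ι => D.card = d ∧ i ∉ D).sigma
      fun D => powersetCard c D, F q.2 * G (q.1 \ q.2) =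
      ∑ p ∈ ((univ.filter fun D : Finset ι => D.card = d ∧ i ∉ D).sigma
        fun D => powersetCard c D).image (fun q => (q.2, q.1 \ q.2)), F p.1 * G p.2 :=
    (sum_image (f := fun p : Finset ι × Finset ι => F p.1 * G p.2) hinj).symm
  rw [h1]
  refine sum_le_sum_of_subset_of_nonneg ?_ fun p _ _ => mul_nonneg (hF _) (hG _)
  intro p hp
  rw [mem_image] at hp
  obtain ⟨⟨D, C⟩, hq, rfl⟩ := hp
  simp only [mem_sigma, mem_filter, mem_univ, true_and, mem_powersetCard] at hq
  simp only [mem_product, mem_filter, mem_univ, true_and]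
  refine ⟨⟨hq.2.2, fun h => hq.1.2 (hq.2.1 h)⟩, ?_⟩
  rw [card_sdiff_of_subset hq.2.1, hq.1.1, hq.2.2]

theorem hc_dep {g : Finset ι → (∀ i, V i) → ℝ} (hg : ∀ A : Finset ι, DependsOn (g A) (A : Set ι))
    (B : Finset ι) : DependsOn (hc g B) (B : Set ι) := by
  intro x y hxy
  unfold hc
  refine sum_congr rfl fun A hA => ?_
  rw [hg A fun j hj => hxy j (by
    have : j ∈ A := by simpa using hj
    exact_mod_cast (mem_powerset.1 hA) this)]

theorem kc_dep {k : Finset ι → (∀ i, V i) → ℝ} {i : ι}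
    (hk : ∀ C : Finset ι, DependsOn (k C) ((insert i C : Finset ι) : Set ι)) (C : Finset ι)
    (a : V i) : DependsOn (fun x => kc k C (Function.update x i a)) (C : Set ι) := by
  intro x y hxy
  have h1 : k C (Function.update x i a) = k C (Function.update y i a) := by
    refine hk C fun j hj => ?_
    by_cases hji : j = i
    · subst hji
      simp
    · rw [Function.update_of_ne hji, Function.update_of_ne hji]
      refine hxy j ?_
      have : j ∈ insert i C := by simpa using hj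
      rw [Finset.mem_insert] at this
      exact_mod_cast this.resolve_left hji
  show kc k C (Function.update x i a) = kc k C (Function.update y i a)
  unfold kc
  rw [h1]

/-- the recursion at one point -/
theorem kR_pt {lam : ∀ i, V i → ℝ} (h0 : ∀ i a, 0 ≤ lam i a)
    {g k : Finset ι → (∀ i, V i) → ℝ}
    (hg : ∀ A : Finset ι, DependsOn (g A) (A : Set ι)) (hg0 : ∀ x, g ∅ x = 1) {i : ι} {d : ℕ}
    (hk : ∀ D : Finset ι, i ∉ D → D.card ≤ d → ∀ x, W lam x ≠ 0 →
      g (insert i D) x = ∑ C ∈ D.powerset, k C x * g (D \ C) x)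
    {a : V i} (ha : lam i a ≠ 0) {D : Finset ι} (hDc : D.card = d) (hiD : i ∉ D)
    (x : ∀ i, V i) :
    W lam x * kc k D (Function.update x i a) ^ 2
      ≤ (d + 1) * (W lam x * hc g (insert i D) (Function.update x i a) ^ 2 +
        ∑ c ∈ range d, (d.choose c : ℝ) * ∑ C ∈ powersetCard c D,
          W lam x * (kc k C (Function.update x i a) ^ 2 * hc g (D \ C) x ^ 2)) := by
  by_cases hx : W lam x = 0
  · rw [hx]
    simp
  have hz : W lam (Function.update x i a) ≠ 0 := by
    intro h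
    have h2 := W_update (lam := lam) x i a
    rw [h, zero_mul] at h2
    exact (mul_ne_zero hx ha) h2.symm
  have e1 := kc_eq (g := g) (k := k) hiD (x := Function.update x i a) (hg0 _) fun A hA =>
    hk A (fun h => hiD (hA h)) ((card_le_card hA).trans hDc.le) _ hz
  rw [hDc] at e1
  have e2 : ∀ C ∈ D.powerset, hc g (D \ C) (Function.update x i a) = hc g (D \ C) x := by
    intro C _
    refine hc_dep hg _ fun j hj => ?_
    have hj' : j ∈ D \ C := by exact_mod_cast hj
    have hji : j ≠ i := by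
      rintro rfl
      exact hiD (mem_sdiff.1 hj').1
    rw [Function.update_of_ne hji]
  have e3 : ∀ c ∈ range d, (∑ C ∈ powersetCard c D, kc k C (Function.update x i a) *
      hc g (D \ C) (Function.update x i a)) ^ 2 ≤ (d.choose c : ℝ) *
      ∑ C ∈ powersetCard c D, kc k C (Function.update x i a) ^ 2 * hc g (D \ C) x ^ 2 := by
    intro c _
    have h3 := sq_sum_le_card_mul_sum_sq (s := powersetCard c D)
      (f := fun C => kc k C (Function.update x i a) * hc g (D \ C) (Function.update x i a))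
    rw [card_powersetCard, hDc] at h3
    refine h3.trans (le_of_eq ?_)
    congr 1
    refine sum_congr rfl fun C hC => ?_
    rw [e2 C (mem_powerset.2 (mem_powersetCard.1 hC).1), mul_pow]
  rw [e1]
  have e4 := cs1 (hc g (insert i D) (Function.update x i a)) (fun c => ∑ C ∈ powersetCard c D,
    kc k C (Function.update x i a) * hc g (D \ C) (Function.update x i a)) d
  have hW := W_nonneg h0 x
  have e5 := sum_le_sum e3
  have hd1 : (0 : ℝ) ≤ (d : ℝ) + 1 := by positivity
  have e6 : ∀ c ∈ range d, (d.choose c : ℝ) * ∑ C ∈ powersetCard c D,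
      W lam x * (kc k C (Function.update x i a) ^ 2 * hc g (D \ C) x ^ 2) =
      W lam x * ((d.choose c : ℝ) * ∑ C ∈ powersetCard c D,
      kc k C (Function.update x i a) ^ 2 * hc g (D \ C) x ^ 2) := by
    intro c _
    rw [← mul_sum]
    ring
  rw [sum_congr rfl e6, ← mul_sum, ← mul_add, mul_left_comm]
  refine mul_le_mul_of_nonneg_left (e4.trans ?_) hW
  exact mul_le_mul_of_nonneg_left (add_le_add le_rfl e5) hd1

/-- the recursion for one set -/
theorem kR_set {lam : ∀ i, V i → ℝ} (h0 : ∀ i a, 0 ≤ lam i a) (h1 : ∀ i, ∑ a, lam i a = 1)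
    {g k : Finset ι → (∀ i, V i) → ℝ}
    (hg : ∀ A : Finset ι, DependsOn (g A) (A : Set ι)) (hg0 : ∀ x, g ∅ x = 1) {i : ι}
    (hkd : ∀ C : Finset ι, DependsOn (k C) ((insert i C : Finset ι) : Set ι)) {d : ℕ}
    (hk : ∀ D : Finset ι, i ∉ D → D.card ≤ d → ∀ x, W lam x ≠ 0 →
      g (insert i D) x = ∑ C ∈ D.powerset, k C x * g (D \ C) x)
    {a : V i} (ha : lam i a ≠ 0) {D : Finset ι} (hDc : D.card = d) (hiD : i ∉ D) :
    ∑ x, W lam x * kc k D (Function.update x i a) ^ 2
      ≤ (d + 1) * (∑ x, W lam x * hc g (insert i D) (Function.update x i a) ^ 2 +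
        ∑ c ∈ range d, (d.choose c : ℝ) * ∑ C ∈ powersetCard c D,
          (∑ x, W lam x * kc k C (Function.update x i a) ^ 2) *
            ∑ x, W lam x * hc g (D \ C) x ^ 2) := by
  refine (sum_le_sum fun x _ => kR_pt h0 hg hg0 hk ha hDc hiD x).trans (le_of_eq ?_)
  rw [← mul_sum, sum_add_distrib]
  congr 2
  rw [sum_comm]
  refine sum_congr rfl fun c _ => ?_
  rw [← mul_sum, sum_comm]
  congr 1
  refine sum_congr rfl fun C hC => ?_
  refine W_indep h1 (S := C) (T := D \ C) disjoint_sdiff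
    (F := fun x => kc k C (Function.update x i a) ^ 2) (G := fun x => hc g (D \ C) x ^ 2) ?_ ?_
  · intro x y hxy
    have h3 : kc k C (Function.update x i a) = kc k C (Function.update y i a) :=
      kc_dep hkd C a hxy
    show kc k C (Function.update x i a) ^ 2 = kc k C (Function.update y i a) ^ 2
    rw [h3]
  · intro x y hxy
    have h3 : hc g (D \ C) x = hc g (D \ C) y := hc_dep hg (D \ C) hxy
    show hc g (D \ C) x ^ 2 = hc g (D \ C) y ^ 2
    rw [h3]

/-- algebra: the weights split -/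
theorem split_w (t : ι → ℝ) (a b : Finset ι → ℝ) (D : Finset ι) (d c : ℕ) :
    (∏ j ∈ D, t j) * ((d.choose c : ℝ) * ∑ C ∈ powersetCard c D, a C * b (D \ C)) =
    (d.choose c : ℝ) * ∑ C ∈ powersetCard c D,
      ((∏ j ∈ C, t j) * a C) * ((∏ j ∈ D \ C, t j) * b (D \ C)) := by
  rw [mul_left_comm]
  congr 1
  rw [mul_sum]
  refine sum_congr rfl fun C hC => ?_
  rw [← prod_sdiff (mem_powersetCard.1 hC).1]
  ring

/-- **the recursion for the rows** -/
theorem kR_rec {lam : ∀ i, V i → ℝ} (h0 : ∀ i a, 0 ≤ lam i a) (h1 : ∀ i, ∑ a, lam i a = 1)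
    {t : ι → ℝ} (ht : ∀ i, 0 ≤ t i) {g k : Finset ι → (∀ i, V i) → ℝ}
    (hg : ∀ A : Finset ι, DependsOn (g A) (A : Set ι)) (hg0 : ∀ x, g ∅ x = 1) {i : ι}
    (hkd : ∀ C : Finset ι, DependsOn (k C) ((insert i C : Finset ι) : Set ι)) {d : ℕ}
    (hk : ∀ D : Finset ι, i ∉ D → D.card ≤ d → ∀ x, W lam x ≠ 0 →
      g (insert i D) x = ∑ C ∈ D.powerset, k C x * g (D \ C) x)
    {a : V i} (ha : lam i a ≠ 0) :
    kR lam t k i a d ≤ (d + 1) * (hR lam t g i a d +
      ∑ c ∈ range d, (d.choose c : ℝ) * (kR lam t k i a c * hT lam t g (d - c))) := by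
  have hF : ∀ C : Finset ι, 0 ≤ (∏ j ∈ C, t j) *
      ∑ x, W lam x * kc k C (Function.update x i a) ^ 2 := fun C =>
    mul_nonneg (prod_nonneg fun j _ => ht j)
      (sum_nonneg fun x _ => mul_nonneg (W_nonneg h0 x) (sq_nonneg _))
  have hG : ∀ C : Finset ι, 0 ≤ (∏ j ∈ C, t j) * ∑ x, W lam x * hc g C x ^ 2 := fun C =>
    mul_nonneg (prod_nonneg fun j _ => ht j)
      (sum_nonneg fun x _ => mul_nonneg (W_nonneg h0 x) (sq_nonneg _))
  have hd1 : (0 : ℝ) ≤ (d : ℝ) + 1 := by positivity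
  have hA : ∀ D ∈ univ.filter (fun D : Finset ι => D.card = d ∧ i ∉ D), (∏ j ∈ D, t j) *
      ∑ x, W lam x * kc k D (Function.update x i a) ^ 2 ≤
      (d + 1) * ((∏ j ∈ D, t j) * ∑ x, W lam x * hc g (insert i D) (Function.update x i a) ^ 2 +
        ∑ c ∈ range d, (d.choose c : ℝ) * ∑ C ∈ powersetCard c D,
          ((∏ j ∈ C, t j) * ∑ x, W lam x * kc k C (Function.update x i a) ^ 2) *
            ((∏ j ∈ D \ C, t j) * ∑ x, W lam x * hc g (D \ C) x ^ 2)) := by
    intro D hDm
    rw [mem_filter] at hDm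
    refine (mul_le_mul_of_nonneg_left (kR_set h0 h1 hg hg0 hkd hk ha hDm.2.1 hDm.2.2)
      (prod_nonneg fun j _ => ht j)).trans (le_of_eq ?_)
    rw [mul_left_comm, mul_add]
    congr 2
    rw [mul_sum]
    refine sum_congr rfl fun c _ => ?_
    exact split_w t (fun C => ∑ x, W lam x * kc k C (Function.update x i a) ^ 2)
      (fun C => ∑ x, W lam x * hc g C x ^ 2) D d c
  unfold kR
  refine (sum_le_sum hA).trans ?_
  rw [← mul_sum, sum_add_distrib, sum_comm]
  refine mul_le_mul_of_nonneg_left (add_le_add le_rfl (sum_le_sum fun c _ => ?_)) hd1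
  rw [← mul_sum]
  exact mul_le_mul_of_nonneg_left (pairs_le (d := d) (c := c) (i := i) hF hG) (Nat.cast_nonneg _)

end energy

section numbers

/-- the loss at order `d` -/
noncomputable def bet (d : ℕ) : ℝ := ((d + 1).factorial : ℝ) * (d.factorial : ℝ) * 4 ^ d

theorem bet_pos (d : ℕ) : 0 < bet d := by
  unfold bet
  positivity

theorem bet_rec (d : ℕ) :
    ((d : ℝ) + 1) * (1 + ∑ c ∈ range d, (d.choose c : ℝ) * bet c) ≤ bet d := by
  have hf0 : 1 ≤ d.factorial := Nat.factorial_pos d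
  have hf1 : (1 : ℝ) ≤ (d.factorial : ℝ) := by exact_mod_cast hf0
  have h1 : ∀ c ∈ range d, (d.choose c : ℝ) * bet c ≤ (d.factorial : ℝ) ^ 2 * 4 ^ c := by
    intro c hc
    have hcd := mem_range.1 hc
    have e1 : d.choose c * c.factorial ≤ d.factorial := by
      rw [← Nat.choose_mul_factorial_mul_factorial hcd.le]
      exact Nat.le_mul_of_pos_right _ (Nat.factorial_pos _)
    have e2 : (c + 1).factorial ≤ d.factorial := Nat.factorial_le hcd
    have e3 : ((d.choose c : ℝ) * (c.factorial : ℝ)) ≤ (d.factorial : ℝ) := by exact_mod_cast e1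
    have e4 : ((c + 1).factorial : ℝ) ≤ (d.factorial : ℝ) := by exact_mod_cast e2
    unfold bet
    calc (d.choose c : ℝ) * (((c + 1).factorial : ℝ) * (c.factorial : ℝ) * 4 ^ c)
        = ((d.choose c : ℝ) * (c.factorial : ℝ)) * ((c + 1).factorial : ℝ) * 4 ^ c := by ring
      _ ≤ (d.factorial : ℝ) * (d.factorial : ℝ) * 4 ^ c := by gcongr
      _ = _ := by ring
  have h2 : ∑ c ∈ range d, (4 : ℝ) ^ c = (4 ^ d - 1) / 3 := by
    rw [geom_sum_eq (by norm_num)]
    norm_num
  have h3 := sum_le_sum h1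
  rw [← mul_sum, h2] at h3
  have h4 : (1 : ℝ) ≤ 4 ^ d := one_le_pow₀ (by norm_num)
  have h5 : bet d = ((d : ℝ) + 1) * ((d.factorial : ℝ) ^ 2 * 4 ^ d) := by
    unfold bet
    rw [Nat.factorial_succ]
    push_cast
    ring
  rw [h5]
  refine mul_le_mul_of_nonneg_left ?_ (by positivity)
  have hf2 : (1 : ℝ) ≤ (d.factorial : ℝ) ^ 2 := one_le_pow₀ hf1
  nlinarith

/-- closing the recursion -/
theorem close {n : ℕ} {K A N : ℕ → ℝ} {a R : ℝ} (ha : 0 ≤ a) (hR : 0 ≤ R)
    (hK0 : ∀ d, 0 ≤ K d)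
    (hrec : ∀ d ≤ n, K d ≤ (d + 1) * (A d + ∑ c ∈ range d, (d.choose c : ℝ) *
      (K c * N (d - c))))
    (hA : ∀ d ≤ n, A d ≤ a * R ^ d) (hN : ∀ e, 1 ≤ e → e ≤ n → N e ≤ R ^ e) :
    ∀ d ≤ n, K d ≤ a * bet d * R ^ d := by
  intro d
  induction d using Nat.strong_induction_on with
  | _ d ih =>
    intro hd
    have h1 : ∀ c ∈ range d, (d.choose c : ℝ) * (K c * N (d - c)) ≤
        (a * R ^ d) * ((d.choose c : ℝ) * bet c) := by
      intro c hc
      have hcd := mem_range.1 hc
      have e1 := ih c hcd (hcd.le.trans hd)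
      have e2 := hN (d - c) (by omega) (by omega)
      have e3 : K c * N (d - c) ≤ a * bet c * R ^ d := by
        calc K c * N (d - c) ≤ K c * R ^ (d - c) := mul_le_mul_of_nonneg_left e2 (hK0 c)
          _ ≤ (a * bet c * R ^ c) * R ^ (d - c) :=
            mul_le_mul_of_nonneg_right e1 (pow_nonneg hR _)
          _ = a * bet c * R ^ d := by
            rw [mul_assoc, ← pow_add, Nat.add_sub_cancel' hcd.le]
      calc (d.choose c : ℝ) * (K c * N (d - c)) ≤ (d.choose c : ℝ) * (a * bet c * R ^ d) :=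
            mul_le_mul_of_nonneg_left e3 (Nat.cast_nonneg _)
        _ = _ := by ring
    have h2 := sum_le_sum h1
    rw [← mul_sum] at h2
    have h3 : A d + ∑ c ∈ range d, (d.choose c : ℝ) * (K c * N (d - c)) ≤
        (a * R ^ d) * (1 + ∑ c ∈ range d, (d.choose c : ℝ) * bet c) := by
      have := hA d hd
      rw [mul_add, mul_one]
      linarith
    have hpos : 0 ≤ a * R ^ d := mul_nonneg ha (pow_nonneg hR _)
    calc K d ≤ (d + 1) * (A d + ∑ c ∈ range d, (d.choose c : ℝ) * (K c * N (d - c))) := hrec d hd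
      _ ≤ (d + 1) * ((a * R ^ d) * (1 + ∑ c ∈ range d, (d.choose c : ℝ) * bet c)) :=
        mul_le_mul_of_nonneg_left h3 (by positivity)
      _ = (a * R ^ d) * ((d + 1) * (1 + ∑ c ∈ range d, (d.choose c : ℝ) * bet c)) := by ring
      _ ≤ (a * R ^ d) * bet d := mul_le_mul_of_nonneg_left (bet_rec d) hpos
      _ = _ := by ring

end numbers

section final

variable {ι : Type*} [Fintype ι] [DecidableEq ι] {V : ι → Type*} [∀ i, Fintype (V i)]
  [∀ i, DecidableEq (V i)]

/-- **rows, abstract**: a weighted family of roots `(i, a)` -/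
theorem kap_rows {lam : ∀ i, V i → ℝ} (h0 : ∀ i a, 0 ≤ lam i a) (h1 : ∀ i, ∑ a, lam i a = 1)
    {t : ι → ℝ} (ht : ∀ i, 0 ≤ t i) {g : Finset ι → (∀ i, V i) → ℝ}
    (hg : ∀ A : Finset ι, DependsOn (g A) (A : Set ι)) (hg0 : ∀ x, g ∅ x = 1)
    {k : ι → Finset ι → (∀ i, V i) → ℝ}
    (hkd : ∀ i, ∀ C : Finset ι, DependsOn (k i C) ((insert i C : Finset ι) : Set ι)) {n : ℕ}
    (hk : ∀ i, ∀ D : Finset ι, i ∉ D → D.card ≤ n → ∀ x, W lam x ≠ 0 →
      g (insert i D) x = ∑ C ∈ D.powerset, k i C x * g (D \ C) x)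
    (S : Finset ι) {v : ∀ i, V i → ℝ} (hv : ∀ i a, 0 ≤ v i a)
    (hv0 : ∀ i a, lam i a = 0 → v i a = 0) {A R : ℝ} (hA0 : 0 ≤ A) (hR0 : 0 ≤ R)
    (hA : ∀ d ≤ n, ∑ i ∈ S, ∑ a, v i a * hR lam t g i a d ≤ A * R ^ d)
    (hN : ∀ e, 1 ≤ e → e ≤ n → hT lam t g e ≤ R ^ e) :
    ∀ d ≤ n, ∑ i ∈ S, ∑ a, v i a * kR lam t (k i) i a d ≤ A * bet d * R ^ d := by
  refine close hA0 hR0 (K := fun d => ∑ i ∈ S, ∑ a, v i a * kR lam t (k i) i a d)
    (A := fun d => ∑ i ∈ S, ∑ a, v i a * hR lam t g i a d) (N := hT lam t g) ?_ ?_ hA hN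
  · exact fun d => sum_nonneg fun i _ => sum_nonneg fun a _ =>
      mul_nonneg (hv i a) (kR_nonneg h0 ht _ i a d)
  · intro d hd
    have h2 : ∀ i a, v i a * kR lam t (k i) i a d ≤ v i a * ((d + 1) * (hR lam t g i a d +
        ∑ c ∈ range d, (d.choose c : ℝ) * (kR lam t (k i) i a c * hT lam t g (d - c)))) := by
      intro i a
      by_cases ha : lam i a = 0
      · rw [hv0 i a ha, zero_mul, zero_mul]
      · exact mul_le_mul_of_nonneg_left (kR_rec h0 h1 ht hg hg0 (hkd i)
          (fun D hD hDc => hk i D hD (hDc.trans hd)) ha) (hv i a)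
    refine (sum_le_sum fun i _ => sum_le_sum fun a _ => h2 i a).trans (le_of_eq ?_)
    have h3 : ∀ i a, v i a * (((d : ℝ) + 1) * (hR lam t g i a d +
        ∑ c ∈ range d, (d.choose c : ℝ) * (kR lam t (k i) i a c * hT lam t g (d - c)))) =
        (d + 1) * (v i a * hR lam t g i a d + ∑ c ∈ range d, (d.choose c : ℝ) *
          (v i a * kR lam t (k i) i a c * hT lam t g (d - c))) := by
      intro i a
      have h4 : v i a * ∑ c ∈ range d, (d.choose c : ℝ) *
          (kR lam t (k i) i a c * hT lam t g (d - c)) = ∑ c ∈ range d, (d.choose c : ℝ) *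
          (v i a * kR lam t (k i) i a c * hT lam t g (d - c)) := by
        rw [mul_sum]
        exact sum_congr rfl fun c _ => by ring
      rw [← h4]
      ring
    simp only [h3]
    simp only [← mul_sum, sum_add_distrib]
    congr 2
    have h5 : ∀ i ∈ S, ∑ a, ∑ c ∈ range d, (d.choose c : ℝ) *
        (v i a * kR lam t (k i) i a c * hT lam t g (d - c)) = ∑ c ∈ range d, ∑ a,
        (d.choose c : ℝ) * (v i a * kR lam t (k i) i a c * hT lam t g (d - c)) :=
      fun i _ => sum_comm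
    rw [sum_congr rfl h5, sum_comm]
    refine sum_congr rfl fun c _ => ?_
    rw [sum_mul, mul_sum]
    refine sum_congr rfl fun i _ => ?_
    rw [sum_mul, mul_sum]

end final

end Vale.Agent.P042.H422
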