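import Vale.Agent.P042.H422.KapF

/-!
# P042, H2.7a for arbitrary set functions

`h : Finset ι → (∀ i, V i) → ℝ` any family with `h_B` depending on `B`, `h_∅ = 1` and
`h_{i+D} = ∑_{C ⊆ D} κ_{i+C} h_{D∖C}` (no law, no centring): rows, rooted totals and rootless
totals of `κ` from those of `h`, weights `t ≥ 0` arbitrary.
-/

set_option autoImplicit false
set_option linter.unusedSectionVars false

namespace Vale.Agent.P042.H422

open Finset Vale.Agent.P042.H461 Vale.Agent.P042.H416 Vale.Agent.P042.H742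
open Vale.Agent.P042.H482 (hc)

variable {ι : Type*} [Fintype ι] [DecidableEq ι] {V : ι → Type*} [∀ i, Fintype (V i)]
  [∀ i, DecidableEq (V i)]

/-- rows through `(i, a)`: `f_D` is evaluated at `x[i := a]` -/
noncomputable def qR (lam : ∀ i, V i → ℝ) (t : ι → ℝ) (f : Finset ι → (∀ i, V i) → ℝ) (i : ι)
    (a : V i) (d : ℕ) : ℝ :=
  ∑ D : Finset ι with D.card = d ∧ i ∉ D, (∏ j ∈ D, t j) *
    ∑ x, W lam x * f D (Function.update x i a) ^ 2

/-- totals -/
noncomputable def qT (lam : ∀ i, V i → ℝ) (t : ι → ℝ) (f : Finset ι → (∀ i, V i) → ℝ)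
    (d : ℕ) : ℝ :=
  ∑ D : Finset ι with D.card = d, (∏ j ∈ D, t j) * ∑ x, W lam x * f D x ^ 2

theorem qR_eq_rowQ (lam : ∀ i, V i → ℝ) (t : ι → ℝ) (f : Finset ι → (∀ i, V i) → ℝ) (i : ι)
    (a : V i) (d : ℕ) : qR lam t f i a d = rowQ lam t i a f d := rfl

theorem hR_eq (lam : ∀ i, V i → ℝ) (t : ι → ℝ) (g : Finset ι → (∀ i, V i) → ℝ) (i : ι)
    (a : V i) (d : ℕ) : hR lam t g i a d = qR lam t (fun D => hc g (insert i D)) i a d := rfl

theorem hT_eq (lam : ∀ i, V i → ℝ) (t : ι → ℝ) (g : Finset ι → (∀ i, V i) → ℝ) (d : ℕ) :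
    hT lam t g d = qT lam t (hc g) d := rfl

theorem kR_eq (lam : ∀ i, V i → ℝ) (t : ι → ℝ) (k : Finset ι → (∀ i, V i) → ℝ) (i : ι)
    (a : V i) (d : ℕ) : kR lam t k i a d = qR lam t (kc k) i a d := rfl

theorem qR_nonneg {lam : ∀ i, V i → ℝ} (h0 : ∀ i a, 0 ≤ lam i a) {t : ι → ℝ}
    (ht : ∀ i, 0 ≤ t i) (f : Finset ι → (∀ i, V i) → ℝ) (i : ι) (a : V i) (d : ℕ) :
    0 ≤ qR lam t f i a d :=
  sum_nonneg fun _ _ => mul_nonneg (prod_nonneg fun j _ => ht j)
    (sum_nonneg fun x _ => mul_nonneg (W_nonneg h0 x) (sq_nonneg _))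

theorem qT_nonneg {lam : ∀ i, V i → ℝ} (h0 : ∀ i a, 0 ≤ lam i a) {t : ι → ℝ}
    (ht : ∀ i, 0 ≤ t i) (f : Finset ι → (∀ i, V i) → ℝ) (d : ℕ) :
    0 ≤ qT lam t f d :=
  sum_nonneg fun _ _ => mul_nonneg (prod_nonneg fun j _ => ht j)
    (sum_nonneg fun x _ => mul_nonneg (W_nonneg h0 x) (sq_nonneg _))

theorem upd_dep {f : Finset ι → (∀ i, V i) → ℝ} {i : ι}
    (hf : ∀ C : Finset ι, DependsOn (f C) ((insert i C : Finset ι) : Set ι)) (C : Finset ι)
    (a : V i) : DependsOn (fun x => f C (Function.update x i a)) (C : Set ι) := by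
  intro x y hxy
  show f C (Function.update x i a) = f C (Function.update y i a)
  refine hf C fun j hj => ?_
  by_cases hji : j = i
  · subst hji
    simp
  · rw [Function.update_of_ne hji, Function.update_of_ne hji]
    refine hxy j ?_
    have : j ∈ insert i C := by simpa using hj
    rw [Finset.mem_insert] at this
    exact_mod_cast this.resolve_left hji

/-- order by order -/
theorem k_eq {h k : Finset ι → ℝ} {H : Finset ι → ℝ} {D : Finset ι} (h0 : h ∅ = 1)
    (hk : H D = ∑ C ∈ D.powerset, k C * h (D \ C)) :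
    k D = H D - ∑ c ∈ range D.card, ∑ C ∈ powersetCard c D, k C * h (D \ C) := by
  rw [Finset.sum_powerset, sum_range_succ, powersetCard_self, sum_singleton, sdiff_self] at hk
  have h2 : h (⊥ : Finset ι) = 1 := h0
  rw [h2, mul_one] at hk
  rw [hk]
  ring

/-- the recursion at one point -/
theorem qR_pt {lam : ∀ i, V i → ℝ} (h0 : ∀ i a, 0 ≤ lam i a)
    {h H k : Finset ι → (∀ i, V i) → ℝ}
    (hh : ∀ A : Finset ι, DependsOn (h A) (A : Set ι)) (hh0 : ∀ x, h ∅ x = 1) {i : ι} {d : ℕ}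
    (hk : ∀ D : Finset ι, i ∉ D → D.card = d → ∀ x, W lam x ≠ 0 →
      H D x = ∑ C ∈ D.powerset, k C x * h (D \ C) x)
    {a : V i} (ha : lam i a ≠ 0) {D : Finset ι} (hDc : D.card = d) (hiD : i ∉ D)
    (x : ∀ i, V i) :
    W lam x * k D (Function.update x i a) ^ 2
      ≤ (d + 1) * (W lam x * H D (Function.update x i a) ^ 2 +
        ∑ c ∈ range d, (d.choose c : ℝ) * ∑ C ∈ powersetCard c D,
          W lam x * (k C (Function.update x i a) ^ 2 * h (D \ C) x ^ 2)) := by
  by_cases hx : W lam x = 0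
  · rw [hx]
    simp
  have hz : W lam (Function.update x i a) ≠ 0 := by
    intro h
    have h2 := W_update (lam := lam) x i a
    rw [h, zero_mul] at h2
    exact (mul_ne_zero hx ha) h2.symm
  have e1 := k_eq (h := fun A => h A (Function.update x i a))
    (k := fun A => k A (Function.update x i a)) (H := fun A => H A (Function.update x i a))
    (hh0 _) (hk D hiD hDc _ hz)
  rw [hDc] at e1
  have e2 : ∀ C ∈ D.powerset, h (D \ C) (Function.update x i a) = h (D \ C) x := by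
    intro C _
    refine hh _ fun j hj => ?_
    have hj' : j ∈ D \ C := by exact_mod_cast hj
    have hji : j ≠ i := by
      rintro rfl
      exact hiD (mem_sdiff.1 hj').1
    rw [Function.update_of_ne hji]
  have e3 : ∀ c ∈ range d, (∑ C ∈ powersetCard c D, k C (Function.update x i a) *
      h (D \ C) (Function.update x i a)) ^ 2 ≤ (d.choose c : ℝ) *
      ∑ C ∈ powersetCard c D, k C (Function.update x i a) ^ 2 * h (D \ C) x ^ 2 := by
    intro c _
    have h3 := sq_sum_le_card_mul_sum_sq (s := powersetCard c D)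
      (f := fun C => k C (Function.update x i a) * h (D \ C) (Function.update x i a))
    rw [card_powersetCard, hDc] at h3
    refine h3.trans (le_of_eq ?_)
    congr 1
    refine sum_congr rfl fun C hC => ?_
    rw [e2 C (mem_powerset.2 (mem_powersetCard.1 hC).1), mul_pow]
  rw [e1]
  have e4 := cs1 (H D (Function.update x i a)) (fun c => ∑ C ∈ powersetCard c D,
    k C (Function.update x i a) * h (D \ C) (Function.update x i a)) d
  have hW := W_nonneg h0 x
  have e5 := sum_le_sum e3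
  have hd1 : (0 : ℝ) ≤ (d : ℝ) + 1 := by positivity
  have e6 : ∀ c ∈ range d, (d.choose c : ℝ) * ∑ C ∈ powersetCard c D,
      W lam x * (k C (Function.update x i a) ^ 2 * h (D \ C) x ^ 2) =
      W lam x * ((d.choose c : ℝ) * ∑ C ∈ powersetCard c D,
      k C (Function.update x i a) ^ 2 * h (D \ C) x ^ 2) := by
    intro c _
    rw [← mul_sum]
    ring
  rw [sum_congr rfl e6, ← mul_sum, ← mul_add, mul_left_comm]
  refine mul_le_mul_of_nonneg_left (e4.trans ?_) hW
  exact mul_le_mul_of_nonneg_left (add_le_add le_rfl e5) hd1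

/-- the recursion for one set -/
theorem qR_set {lam : ∀ i, V i → ℝ} (h0 : ∀ i a, 0 ≤ lam i a) (h1 : ∀ i, ∑ a, lam i a = 1)
    {h H k : Finset ι → (∀ i, V i) → ℝ}
    (hh : ∀ A : Finset ι, DependsOn (h A) (A : Set ι)) (hh0 : ∀ x, h ∅ x = 1) {i : ι}
    (hkd : ∀ C : Finset ι, DependsOn (k C) ((insert i C : Finset ι) : Set ι)) {d : ℕ}
    (hk : ∀ D : Finset ι, i ∉ D → D.card = d → ∀ x, W lam x ≠ 0 →
      H D x = ∑ C ∈ D.powerset, k C x * h (D \ C) x)
    {a : V i} (ha : lam i a ≠ 0) {D : Finset ι} (hDc : D.card = d) (hiD : i ∉ D) :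
    ∑ x, W lam x * k D (Function.update x i a) ^ 2
      ≤ (d + 1) * (∑ x, W lam x * H D (Function.update x i a) ^ 2 +
        ∑ c ∈ range d, (d.choose c : ℝ) * ∑ C ∈ powersetCard c D,
          (∑ x, W lam x * k C (Function.update x i a) ^ 2) *
            ∑ x, W lam x * h (D \ C) x ^ 2) := by
  refine (sum_le_sum fun x _ => qR_pt h0 hh hh0 hk ha hDc hiD x).trans (le_of_eq ?_)
  rw [← mul_sum, sum_add_distrib]
  congr 2
  rw [sum_comm]
  refine sum_congr rfl fun c _ => ?_
  rw [← mul_sum, sum_comm]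
  congr 1
  refine sum_congr rfl fun C hC => ?_
  refine W_indep h1 (S := C) (T := D \ C) disjoint_sdiff
    (F := fun x => k C (Function.update x i a) ^ 2) (G := fun x => h (D \ C) x ^ 2) ?_ ?_
  · intro x y hxy
    have h3 : k C (Function.update x i a) = k C (Function.update y i a) :=
      upd_dep hkd C a hxy
    show k C (Function.update x i a) ^ 2 = k C (Function.update y i a) ^ 2
    rw [h3]
  · intro x y hxy
    have h3 : h (D \ C) x = h (D \ C) y := hh (D \ C) hxy
    show h (D \ C) x ^ 2 = h (D \ C) y ^ 2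
    rw [h3]

/-- **the recursion for the rows, any set functions**: `H_D = ∑_{C ⊆ D} k_C h_{D∖C}` at order `d`,
`h_∅ = 1`, `k_C` depends on `i + C`, `h_E` on `E` -/
theorem qR_rec {lam : ∀ i, V i → ℝ} (h0 : ∀ i a, 0 ≤ lam i a) (h1 : ∀ i, ∑ a, lam i a = 1)
    {t : ι → ℝ} (ht : ∀ i, 0 ≤ t i) {h H k : Finset ι → (∀ i, V i) → ℝ}
    (hh : ∀ A : Finset ι, DependsOn (h A) (A : Set ι)) (hh0 : ∀ x, h ∅ x = 1) {i : ι}
    (hkd : ∀ C : Finset ι, DependsOn (k C) ((insert i C : Finset ι) : Set ι)) {d : ℕ}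
    (hk : ∀ D : Finset ι, i ∉ D → D.card = d → ∀ x, W lam x ≠ 0 →
      H D x = ∑ C ∈ D.powerset, k C x * h (D \ C) x)
    {a : V i} (ha : lam i a ≠ 0) :
    qR lam t k i a d ≤ (d + 1) * (qR lam t H i a d +
      ∑ c ∈ range d, (d.choose c : ℝ) * (qR lam t k i a c * qT lam t h (d - c))) := by
  have hF : ∀ C : Finset ι, 0 ≤ (∏ j ∈ C, t j) *
      ∑ x, W lam x * k C (Function.update x i a) ^ 2 := fun C =>
    mul_nonneg (prod_nonneg fun j _ => ht j)
      (sum_nonneg fun x _ => mul_nonneg (W_nonneg h0 x) (sq_nonneg _))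
  have hG : ∀ C : Finset ι, 0 ≤ (∏ j ∈ C, t j) * ∑ x, W lam x * h C x ^ 2 := fun C =>
    mul_nonneg (prod_nonneg fun j _ => ht j)
      (sum_nonneg fun x _ => mul_nonneg (W_nonneg h0 x) (sq_nonneg _))
  have hd1 : (0 : ℝ) ≤ (d : ℝ) + 1 := by positivity
  have hA : ∀ D ∈ univ.filter (fun D : Finset ι => D.card = d ∧ i ∉ D), (∏ j ∈ D, t j) *
      ∑ x, W lam x * k D (Function.update x i a) ^ 2 ≤
      (d + 1) * ((∏ j ∈ D, t j) * ∑ x, W lam x * H D (Function.update x i a) ^ 2 +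
        ∑ c ∈ range d, (d.choose c : ℝ) * ∑ C ∈ powersetCard c D,
          ((∏ j ∈ C, t j) * ∑ x, W lam x * k C (Function.update x i a) ^ 2) *
            ((∏ j ∈ D \ C, t j) * ∑ x, W lam x * h (D \ C) x ^ 2)) := by
    intro D hDm
    rw [mem_filter] at hDm
    refine (mul_le_mul_of_nonneg_left (qR_set h0 h1 hh hh0 hkd hk ha hDm.2.1 hDm.2.2)
      (prod_nonneg fun j _ => ht j)).trans (le_of_eq ?_)
    rw [mul_left_comm, mul_add]
    congr 2
    rw [mul_sum]
    refine sum_congr rfl fun c _ => ?_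
    exact split_w t (fun C => ∑ x, W lam x * k C (Function.update x i a) ^ 2)
      (fun C => ∑ x, W lam x * h C x ^ 2) D d c
  unfold qR
  refine (sum_le_sum hA).trans ?_
  rw [← mul_sum, sum_add_distrib, sum_comm]
  refine mul_le_mul_of_nonneg_left (add_le_add le_rfl (sum_le_sum fun c _ => ?_)) hd1
  rw [← mul_sum]
  exact mul_le_mul_of_nonneg_left (pairs_le (d := d) (c := c) (i := i) hF hG) (Nat.cast_nonneg _)

/-- **one row** -/
theorem row_S {lam : ∀ i, V i → ℝ} (h0 : ∀ i a, 0 ≤ lam i a) (h1 : ∀ i, ∑ a, lam i a = 1)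
    {t : ι → ℝ} (ht : ∀ i, 0 ≤ t i) {h H k : Finset ι → (∀ i, V i) → ℝ}
    (hh : ∀ A : Finset ι, DependsOn (h A) (A : Set ι)) (hh0 : ∀ x, h ∅ x = 1) {i : ι}
    (hkd : ∀ C : Finset ι, DependsOn (k C) ((insert i C : Finset ι) : Set ι)) {n : ℕ}
    (hk : ∀ D : Finset ι, i ∉ D → D.card ≤ n → ∀ x, W lam x ≠ 0 →
      H D x = ∑ C ∈ D.powerset, k C x * h (D \ C) x)
    {a : V i} (ha : lam i a ≠ 0) {A R : ℝ} (hA0 : 0 ≤ A) (hR0 : 0 ≤ R)
    (hA : ∀ d ≤ n, qR lam t H i a d ≤ A * R ^ d)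
    (hN : ∀ e, 1 ≤ e → e ≤ n → qT lam t h e ≤ R ^ e) :
    ∀ d ≤ n, qR lam t k i a d ≤ A * bet d * R ^ d :=
  close hA0 hR0 (K := qR lam t k i a) (A := qR lam t H i a) (N := qT lam t h)
    (qR_nonneg h0 ht k i a)
    (fun d hd => qR_rec h0 h1 ht hh hh0 hkd (fun D hD hDc x hx => hk D hD (hDc.le.trans hd) x hx)
      ha) hA hN

/-- averaging over the root -/
theorem sum_lam_qR {lam : ∀ i, V i → ℝ} (h1 : ∀ i, ∑ a, lam i a = 1) (t : ι → ℝ)
    (f : Finset ι → (∀ i, V i) → ℝ) (i : ι) (d : ℕ) :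
    ∑ a, lam i a * qR lam t f i a d = ∑ D : Finset ι with D.card = d ∧ i ∉ D, (∏ j ∈ D, t j) *
      ∑ x, W lam x * f D x ^ 2 := by
  unfold qR
  simp only [mul_sum]
  rw [sum_comm]
  refine sum_congr rfl fun D _ => ?_
  rw [sum_comm, ← mul_sum, ← sum_av' h1 i (fun x => f D x ^ 2), mul_sum]
  refine sum_congr rfl fun x _ => ?_
  unfold av
  rw [mul_sum, mul_sum]
  exact sum_congr rfl fun a _ => by ring

/-- the sum over all roots counts every set `card` times -/
theorem sum_roots {lam : ∀ i, V i → ℝ} (h1 : ∀ i, ∑ a, lam i a = 1) (t : ι → ℝ)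
    (f : Finset ι → (∀ i, V i) → ℝ) (d : ℕ) :
    ∑ i, t i * ∑ a, lam i a * qR lam t (fun D => f (insert i D)) i a d =
      ((d : ℝ) + 1) * qT lam t f (d + 1) := by
  have h2 : ∀ i ∈ (univ : Finset ι), t i * ∑ a, lam i a * qR lam t (fun D => f (insert i D)) i a d =
      ∑ B : Finset ι with B.card = d + 1, if i ∈ B then
        (∏ j ∈ B, t j) * ∑ x, W lam x * f B x ^ 2 else 0 := by
    intro i _
    rw [sum_lam_qR h1, mul_sum, ← sum_filter, filter_filter]
    refine sum_bij' (fun D _ => insert i D) (fun B _ => B.erase i) ?_ ?_ ?_ ?_ ?_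
    · intro D hD
      rw [mem_filter] at hD
      rw [mem_filter]
      exact ⟨mem_univ _, by rw [card_insert_of_notMem hD.2.2, hD.2.1], mem_insert_self _ _⟩
    · intro B hB
      rw [mem_filter] at hB
      rw [mem_filter]
      exact ⟨mem_univ _, by rw [card_erase_of_mem hB.2.2, hB.2.1]; rfl, notMem_erase _ _⟩
    · intro D hD
      rw [mem_filter] at hD
      exact erase_insert hD.2.2
    · intro B hB
      rw [mem_filter] at hB
      exact insert_erase hB.2.2
    · intro D hD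
      rw [mem_filter] at hD
      rw [prod_insert hD.2.2]
      ring
  rw [sum_congr rfl h2, sum_comm]
  unfold qT
  rw [mul_sum]
  refine sum_congr rfl fun B hB => ?_
  rw [mem_filter] at hB
  rw [← sum_filter, sum_const, nsmul_eq_mul]
  have h3 : ((univ : Finset ι).filter fun i => i ∈ B) = B := by
    ext i
    simp
  rw [h3, hB.2]
  push_cast
  ring

/-- the recursion for the rootless totals -/
theorem qT_rec {lam : ∀ i, V i → ℝ} (h0 : ∀ i a, 0 ≤ lam i a) (h1 : ∀ i, ∑ a, lam i a = 1)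
    {t : ι → ℝ} (ht : ∀ i, 0 ≤ t i) {h kap : Finset ι → (∀ i, V i) → ℝ}
    (hh : ∀ A : Finset ι, DependsOn (h A) (A : Set ι)) (hh0 : ∀ x, h ∅ x = 1)
    (hkd : ∀ C : Finset ι, DependsOn (kap C) (C : Set ι)) {d : ℕ}
    (hk : ∀ (i : ι) (D : Finset ι), i ∉ D → D.card = d → ∀ x, W lam x ≠ 0 →
      h (insert i D) x = ∑ C ∈ D.powerset, kap (insert i C) x * h (D \ C) x) :
    qT lam t kap (d + 1) ≤ (d + 1) * (qT lam t h (d + 1) +
      ∑ c ∈ range d, (d.choose c : ℝ) * (qT lam t kap (c + 1) * qT lam t h (d - c))) := by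
  have hd1 : (0 : ℝ) < (d : ℝ) + 1 := by positivity
  have hT0 := fun e => qT_nonneg h0 ht h e
  have hK0 := fun e => qT_nonneg h0 ht kap e
  -- one root
  have h2 : ∀ i : ι, ∀ a : V i, lam i a * qR lam t (fun D => kap (insert i D)) i a d ≤
      lam i a * ((d + 1) * (qR lam t (fun D => h (insert i D)) i a d +
        ∑ c ∈ range d, (d.choose c : ℝ) *
          (qR lam t (fun D => kap (insert i D)) i a c * qT lam t h (d - c)))) := by
    intro i a
    by_cases ha : lam i a = 0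
    · rw [ha, zero_mul, zero_mul]
    · exact mul_le_mul_of_nonneg_left (qR_rec h0 h1 ht (H := fun D => h (insert i D))
        (k := fun D => kap (insert i D)) hh hh0 (fun C => hkd (insert i C)) (hk i) ha) (h0 i a)
  have h3 : ∑ i, t i * ∑ a, lam i a * qR lam t (fun D => kap (insert i D)) i a d ≤
      ∑ i, t i * ∑ a, lam i a * ((d + 1) * (qR lam t (fun D => h (insert i D)) i a d +
        ∑ c ∈ range d, (d.choose c : ℝ) *
          (qR lam t (fun D => kap (insert i D)) i a c * qT lam t h (d - c)))) :=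
    sum_le_sum fun i _ => mul_le_mul_of_nonneg_left (sum_le_sum fun a _ => h2 i a) (ht i)
  rw [sum_roots h1] at h3
  have h4 : ∑ i, t i * ∑ a, lam i a * (((d : ℝ) + 1) * (qR lam t (fun D => h (insert i D)) i a d +
        ∑ c ∈ range d, (d.choose c : ℝ) *
          (qR lam t (fun D => kap (insert i D)) i a c * qT lam t h (d - c)))) =
      (d + 1) * ((((d : ℝ) + 1) * qT lam t h (d + 1)) + ∑ c ∈ range d, (d.choose c : ℝ) *
        ((((c : ℝ) + 1) * qT lam t kap (c + 1)) * qT lam t h (d - c))) := by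
    rw [← sum_roots h1 t h d]
    simp only [← sum_roots h1 t kap]
    have e1 : ∀ (i : ι) (a : V i), lam i a * (((d : ℝ) + 1) *
        (qR lam t (fun D => h (insert i D)) i a d + ∑ c ∈ range d, (d.choose c : ℝ) *
          (qR lam t (fun D => kap (insert i D)) i a c * qT lam t h (d - c)))) =
        (d + 1) * (lam i a * qR lam t (fun D => h (insert i D)) i a d) +
        ∑ c ∈ range d, (d + 1) * ((d.choose c : ℝ) * ((lam i a *
          qR lam t (fun D => kap (insert i D)) i a c) * qT lam t h (d - c))) := by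
      intro i a
      rw [← mul_sum]
      have e2 : ∑ c ∈ range d, (d.choose c : ℝ) * ((lam i a *
          qR lam t (fun D => kap (insert i D)) i a c) * qT lam t h (d - c)) =
          lam i a * ∑ c ∈ range d, (d.choose c : ℝ) *
          (qR lam t (fun D => kap (insert i D)) i a c * qT lam t h (d - c)) := by
        rw [mul_sum]
        exact sum_congr rfl fun c _ => by ring
      rw [e2]
      ring
    have e3 : ∀ i : ι, t i * ∑ a, lam i a * (((d : ℝ) + 1) *
        (qR lam t (fun D => h (insert i D)) i a d + ∑ c ∈ range d, (d.choose c : ℝ) *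
          (qR lam t (fun D => kap (insert i D)) i a c * qT lam t h (d - c)))) =
        (d + 1) * (t i * ∑ a, lam i a * qR lam t (fun D => h (insert i D)) i a d) +
        ∑ c ∈ range d, (d + 1) * ((d.choose c : ℝ) * ((t i * ∑ a, lam i a *
          qR lam t (fun D => kap (insert i D)) i a c) * qT lam t h (d - c))) := by
      intro i
      rw [sum_congr rfl fun a _ => e1 i a, sum_add_distrib, sum_comm, ← mul_sum, mul_add]
      congr 1
      · ring
      · rw [mul_sum]
        refine sum_congr rfl fun c _ => ?_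
        rw [← mul_sum, ← mul_sum, ← sum_mul]
        ring
    rw [sum_congr rfl fun i _ => e3 i, sum_add_distrib, sum_comm, ← mul_sum, mul_add]
    congr 1
    rw [mul_sum]
    refine sum_congr rfl fun c _ => ?_
    rw [← mul_sum, ← mul_sum, ← sum_mul]
  rw [h4] at h3
  have h5 : qT lam t kap (d + 1) ≤ ((d : ℝ) + 1) * qT lam t h (d + 1) +
      ∑ c ∈ range d, (d.choose c : ℝ) *
        ((((c : ℝ) + 1) * qT lam t kap (c + 1)) * qT lam t h (d - c)) :=
    le_of_mul_le_mul_left h3 hd1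
  refine h5.trans ?_
  rw [mul_add, mul_sum]
  refine add_le_add le_rfl (sum_le_sum fun c hc => ?_)
  have hcd : ((c : ℝ) + 1) ≤ (d : ℝ) + 1 := by
    have : c < d := mem_range.1 hc
    have h6 : (c : ℝ) ≤ (d : ℝ) := by exact_mod_cast this.le
    linarith
  have h7 : 0 ≤ (d.choose c : ℝ) * (qT lam t kap (c + 1) * qT lam t h (d - c)) :=
    mul_nonneg (Nat.cast_nonneg _) (mul_nonneg (hK0 _) (hT0 _))
  calc (d.choose c : ℝ) * ((((c : ℝ) + 1) * qT lam t kap (c + 1)) * qT lam t h (d - c))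
      = ((c : ℝ) + 1) * ((d.choose c : ℝ) * (qT lam t kap (c + 1) * qT lam t h (d - c))) := by
        ring
    _ ≤ ((d : ℝ) + 1) * ((d.choose c : ℝ) * (qT lam t kap (c + 1) * qT lam t h (d - c))) :=
        mul_le_mul_of_nonneg_right hcd h7

/-- **rootless totals, any set function** -/
theorem tot_S {lam : ∀ i, V i → ℝ} (h0 : ∀ i a, 0 ≤ lam i a) (h1 : ∀ i, ∑ a, lam i a = 1)
    {t : ι → ℝ} (ht : ∀ i, 0 ≤ t i) {h kap : Finset ι → (∀ i, V i) → ℝ}
    (hh : ∀ A : Finset ι, DependsOn (h A) (A : Set ι)) (hh0 : ∀ x, h ∅ x = 1)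
    (hkd : ∀ C : Finset ι, DependsOn (kap C) (C : Set ι)) {n : ℕ}
    (hk : ∀ (i : ι) (D : Finset ι), i ∉ D → D.card < n → ∀ x, W lam x ≠ 0 →
      h (insert i D) x = ∑ C ∈ D.powerset, kap (insert i C) x * h (D \ C) x)
    {R : ℝ} (hR0 : 0 ≤ R) (hN : ∀ e, 1 ≤ e → e ≤ n → qT lam t h e ≤ R ^ e) :
    ∀ e, 1 ≤ e → e ≤ n → qT lam t kap e ≤ bet (e - 1) * R ^ e := by
  intro e he hen
  have h2 := close (n := n - 1) (K := fun d => qT lam t kap (d + 1))
    (A := fun d => qT lam t h (d + 1)) (N := qT lam t h) hR0 hR0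
    (fun d => qT_nonneg h0 ht kap (d + 1))
    (fun d hd => qT_rec h0 h1 ht hh hh0 hkd (fun i D hD hDc x hx =>
      hk i D hD (by omega) x hx))
    (fun d hd => by
      have := hN (d + 1) (by omega) (by omega)
      rw [pow_succ'] at this
      exact this)
    (fun e he1 he2 => hN e he1 (by omega)) (e - 1) (by omega)
  simp only [Nat.sub_add_cancel he] at h2
  refine h2.trans (le_of_eq ?_)
  have h3 : R ^ e = R * R ^ (e - 1) := by
    rw [← pow_succ', Nat.sub_add_cancel he]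
  rw [h3]
  ring

end Vale.Agent.P042.H422
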