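import Vale.Agent.P042.H422.KapH

/-!
# P042, H2.7a: the connected densities of the sets meeting `U`

Pointwise algebra of set functions. If `h = exp_* κ` (`h_{i+D} = ∑_{C ⊆ D} κ_{i+C} h_{D∖C}`) and
`h = h' * h_L` with `h_L` = restriction of `h` to the sets disjoint from `U`, then
`h' = exp_* κ'`, `κ'_B = κ_B` for `B` meeting `U`, `0` otherwise.
-/

set_option autoImplicit false
set_option linter.unusedSectionVars false

namespace Vale.Agent.P042.H422

open Finset

variable {ι : Type*} [Fintype ι] [DecidableEq ι]

/-- the convolution of set functions -/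
noncomputable def cv (f g : Finset ι → ℝ) (D : Finset ι) : ℝ :=
  ∑ C ∈ D.powerset, f C * g (D \ C)

theorem cv_comm (f g : Finset ι → ℝ) (D : Finset ι) : cv f g D = cv g f D := by
  unfold cv
  refine sum_bij' (fun C _ => D \ C) (fun C _ => D \ C) ?_ ?_ ?_ ?_ ?_
  · intro C _
    exact mem_powerset.2 sdiff_subset
  · intro C _
    exact mem_powerset.2 sdiff_subset
  · intro C hC
    exact Finset.sdiff_sdiff_eq_self (mem_powerset.1 hC)
  · intro C hC
    exact Finset.sdiff_sdiff_eq_self (mem_powerset.1 hC)
  · intro C hC
    rw [Finset.sdiff_sdiff_eq_self (mem_powerset.1 hC), mul_comm]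

theorem cv_assoc (f g k : Finset ι → ℝ) (D : Finset ι) :
    cv (cv f g) k D = cv f (cv g k) D := by
  unfold cv
  have h1 : ∀ A ∈ D.powerset, (∑ C ∈ A.powerset, f C * g (A \ C)) * k (D \ A) =
      ∑ C ∈ A.powerset, (fun C E => f C * g E * k (D \ (C ∪ E))) C (A \ C) := by
    intro A _
    rw [sum_mul]
    refine sum_congr rfl fun C hC => ?_
    simp only [union_sdiff_of_subset (mem_powerset.1 hC)]
  rw [sum_congr rfl h1, sum_conv D (fun C E => f C * g E * k (D \ (C ∪ E)))]
  refine sum_congr rfl fun C _ => ?_
  rw [mul_sum]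
  refine sum_congr rfl fun E _ => ?_
  rw [show D \ (C ∪ E) = (D \ C) \ E from (sdiff_sdiff_left (a := D) (b := C) (c := E)).symm]
  ring

/-- the Leibniz rule -/
theorem cv_insert (f g : Finset ι → ℝ) {i : ι} {D : Finset ι} (hi : i ∉ D) :
    cv f g (insert i D) =
      cv (fun C => f (insert i C)) g D + cv f (fun C => g (insert i C)) D := by
  unfold cv
  rw [sum_powerset_insert hi, add_comm]
  congr 1
  · refine sum_congr rfl fun C hC => ?_
    have h1 : insert i D \ insert i C = D \ C := by
      ext j
      simp only [mem_sdiff, mem_insert, not_or]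
      constructor
      · rintro ⟨h1 | h1, h2, h3⟩
        · exact absurd h1 h2
        · exact ⟨h1, h3⟩
      · rintro ⟨h1, h2⟩
        refine ⟨Or.inr h1, ?_, h2⟩
        rintro rfl
        exact hi h1
    rw [h1]
  · refine sum_congr rfl fun C hC => ?_
    have hiC : i ∉ C := fun h => hi (mem_powerset.1 hC h)
    rw [insert_sdiff_of_notMem _ hiC]

/-- congruence on the subsets of `D` -/
theorem cv_congr {f f' g g' : Finset ι → ℝ} {D : Finset ι} (hf : ∀ C, C ⊆ D → f C = f' C)
    (hg : ∀ C, C ⊆ D → g C = g' C) : cv f g D = cv f' g' D := by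
  unfold cv
  refine sum_congr rfl fun C hC => ?_
  rw [hf C (mem_powerset.1 hC), hg _ sdiff_subset]

/-- cancellation -/
theorem cv_cancel {r g : Finset ι → ℝ} (hg : g ∅ = 1) {D : Finset ι}
    (h : ∀ C, C ⊆ D → cv r g C = 0) : r D = 0 := by
  induction D using Finset.strongInduction with
  | H D ih =>
    have h1 := h D (Subset.refl D)
    unfold cv at h1
    rw [sum_eq_single D] at h1
    · rw [Finset.sdiff_self, hg, mul_one] at h1
      exact h1
    · intro C hC hCD
      have hss : C ⊂ D := lt_of_le_of_ne (mem_powerset.1 hC) hCD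
      rw [ih C hss fun E hE => h E (hE.trans hss.1), zero_mul]
    · intro h2
      exact absurd (mem_powerset_self D) h2

/-- **the connected densities of the sets meeting `U`** (pointwise) -/
theorem restr {h kap h' : Finset ι → ℝ} {U : Finset ι} (h0 : h ∅ = 1)
    (hh : ∀ B, h B = cv h' (fun E => if Disjoint E U then h E else 0) B)
    (hk : ∀ (i : ι) (D : Finset ι), i ∉ D →
      h (insert i D) = cv (fun C => kap (insert i C)) h D)
    {i : ι} {D : Finset ι} (hi : i ∉ D) :
    h' (insert i D) =
      cv (fun C => if Disjoint (insert i C) U then 0 else kap (insert i C)) h' D := by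
  set hL : Finset ι → ℝ := fun E => if Disjoint E U then h E else 0 with hLd
  set kU : Finset ι → ℝ := fun C => if Disjoint (insert i C) U then 0 else kap (insert i C)
    with hkU
  set kL : Finset ι → ℝ := fun C => if Disjoint (insert i C) U then kap (insert i C) else 0
    with hkL
  have hL0 : hL ∅ = 1 := by
    simp [hLd, h0]
  -- the derivative of `hL`
  have hLi : ∀ C, i ∉ C → hL (insert i C) = cv kL hL C := by
    intro C hiC
    by_cases hd : Disjoint (insert i C) U
    · have h1 : hL (insert i C) = h (insert i C) := by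
        simp only [hLd]
        rw [if_pos hd]
      rw [h1, hk i C hiC]
      refine cv_congr (fun E hE => ?_) (fun E hE => ?_)
      · simp only [hkL]
        rw [if_pos (disjoint_of_subset_left (insert_subset_insert i hE) hd)]
      · simp only [hLd]
        rw [if_pos (disjoint_of_subset_left (hE.trans (subset_insert i C)) hd)]
    · have h1 : hL (insert i C) = 0 := by
        simp only [hLd]
        rw [if_neg hd]
      rw [h1]
      unfold cv
      refine (sum_eq_zero fun E hE => ?_).symm
      simp only [hkL, hLd]
      by_cases hd1 : Disjoint (insert i E) U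
      · rw [if_pos hd1]
        by_cases hd2 : Disjoint (C \ E) U
        · exfalso
          refine hd ?_
          have h2 : insert i C = insert i E ∪ (C \ E) := by
            rw [insert_union, union_sdiff_of_subset (mem_powerset.1 hE)]
          rw [h2, disjoint_union_left]
          exact ⟨hd1, hd2⟩
        · rw [if_neg hd2, mul_zero]
      · rw [if_neg hd1, zero_mul]
  -- the remainder
  have key : (fun C => h' (insert i C) - cv kU h' C) D = 0 := by
    refine cv_cancel (r := fun C => h' (insert i C) - cv kU h' C) hL0 fun C hC => ?_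
    have hiC : i ∉ C := fun h2 => hi (hC h2)
    have e1 : cv (fun C => h' (insert i C) - cv kU h' C) hL C =
        cv (fun C => h' (insert i C)) hL C - cv (cv kU h') hL C := by
      unfold cv
      rw [← sum_sub_distrib]
      exact sum_congr rfl fun E _ => by ring
    have e2 : cv (fun C => h' (insert i C)) hL C =
        h (insert i C) - cv h' (fun E => hL (insert i E)) C := by
      have h3 := cv_insert h' hL hiC
      rw [← hh (insert i C)] at h3
      linarith
    have e3 : cv h' (fun E => hL (insert i E)) C = cv kL h C := by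
      have h4 : cv h' (fun E => hL (insert i E)) C = cv h' (cv kL hL) C :=
        cv_congr (fun _ _ => rfl) fun E hE => hLi E fun h5 => hiC (hE h5)
      rw [h4, ← cv_assoc]
      have h5 : cv (cv h' kL) hL C = cv (cv kL h') hL C :=
        cv_congr (fun E _ => cv_comm _ _ _) fun _ _ => rfl
      rw [h5, cv_assoc]
      exact cv_congr (fun _ _ => rfl) fun E _ => (hh E).symm
    have e4 : cv (cv kU h') hL C = cv kU h C := by
      rw [cv_assoc]
      exact cv_congr (fun _ _ => rfl) fun E _ => (hh E).symm
    have e5 : h (insert i C) = cv kU h C + cv kL h C := by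
      rw [hk i C hiC]
      unfold cv
      rw [← sum_add_distrib]
      refine sum_congr rfl fun E _ => ?_
      simp only [hkU, hkL]
      by_cases hd : Disjoint (insert i E) U
      · rw [if_pos hd, if_pos hd]
        ring
      · rw [if_neg hd, if_neg hd]
        ring
    rw [e1, e2, e3, e4, e5]
    ring
  simp only at key
  linarith

/-- the same with the relative components `kp D E`, `D ⊆ U` nonempty, `E` disjoint from `U`:
`h_{D+E} = ∑_{C ⊆ E} kp_D(C) h_{E∖C}` -/
theorem restr_rel {h kap : Finset ι → ℝ} {kp : Finset ι → Finset ι → ℝ} {U : Finset ι}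
    (h0 : h ∅ = 1)
    (hh : ∀ D E, D ⊆ U → D ≠ ∅ → Disjoint E U →
      h (D ∪ E) = ∑ C ∈ E.powerset, kp D C * h (E \ C))
    (hk : ∀ (i : ι) (D : Finset ι), i ∉ D →
      h (insert i D) = cv (fun C => kap (insert i C)) h D) :
    let h' : Finset ι → ℝ := fun B => if B ∩ U = ∅ then (if B = ∅ then 1 else 0)
      else kp (B ∩ U) (B \ U)
    h' ∅ = 1 ∧ ∀ (i : ι) (D : Finset ι), i ∉ D → h' (insert i D) =
      cv (fun C => if Disjoint (insert i C) U then 0 else kap (insert i C)) h' D := by
  intro h'
  refine ⟨by simp [h'], fun i D hi => restr h0 (fun B => ?_) hk hi⟩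
  unfold cv
  have e0 : ∑ C ∈ B.powerset, h' C * (if Disjoint (B \ C) U then h (B \ C) else 0) =
      ∑ C ∈ B.powerset with B ∩ U ⊆ C, h' C * h (B \ C) := by
    rw [sum_filter]
    refine sum_congr rfl fun C _ => ?_
    have h1 : Disjoint (B \ C) U ↔ B ∩ U ⊆ C := by
      rw [Finset.disjoint_left]
      constructor
      · intro h2 j hj
        rw [mem_inter] at hj
        by_contra h3
        exact h2 (mem_sdiff.2 ⟨hj.1, h3⟩) hj.2
      · intro h2 j hj hjU
        rw [mem_sdiff] at hj
        exact hj.2 (h2 (mem_inter.2 ⟨hj.1, hjU⟩))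
    by_cases h2 : B ∩ U ⊆ C
    · rw [if_pos (h1.2 h2), if_pos h2]
    · rw [if_neg fun h3 => h2 (h1.1 h3), if_neg h2, mul_zero]
  rw [e0]
  by_cases hBU : B ∩ U = ∅
  · -- only `C = ∅` contributes
    rw [sum_eq_single ∅]
    · simp [h']
    · intro C hC hC0
      rw [mem_filter, mem_powerset] at hC
      have h1 : C ∩ U = ∅ := by
        rw [← subset_empty, ← hBU]
        exact inter_subset_inter_right hC.1
      simp only [h']
      rw [if_pos h1, if_neg hC0, zero_mul]
    · intro h1
      refine absurd (mem_filter.2 ⟨empty_mem_powerset B, ?_⟩) h1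
      rw [hBU]
  · have h1 : B = (B ∩ U) ∪ (B \ U) := by
      rw [union_comm, sdiff_union_inter]
    have h2 := hh (B ∩ U) (B \ U) inter_subset_right hBU sdiff_disjoint
    rw [← h1] at h2
    rw [h2]
    refine sum_bij' (fun C _ => (B ∩ U) ∪ C) (fun C _ => C \ U) ?_ ?_ ?_ ?_ ?_
    · intro C hC
      rw [mem_powerset] at hC
      rw [mem_filter, mem_powerset]
      exact ⟨union_subset inter_subset_left (hC.trans sdiff_subset), subset_union_left⟩
    · intro C hC
      rw [mem_filter, mem_powerset] at hC
      rw [mem_powerset]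
      exact sdiff_subset_sdiff hC.1 (Subset.refl U)
    · intro C hC
      rw [mem_powerset] at hC
      have hd : Disjoint C U := disjoint_of_subset_left hC sdiff_disjoint
      show ((B ∩ U) ∪ C) \ U = C
      rw [union_sdiff_distrib, sdiff_eq_self_of_disjoint hd]
      have h3 : (B ∩ U) \ U = ∅ := by
        rw [sdiff_eq_empty_iff_subset]
        exact inter_subset_right
      rw [h3, empty_union]
    · intro C hC
      rw [mem_filter, mem_powerset] at hC
      show (B ∩ U) ∪ (C \ U) = C
      have h3 : C ∩ U = B ∩ U := by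
        ext j
        simp only [mem_inter]
        constructor
        · rintro ⟨h4, h5⟩
          exact ⟨hC.1 h4, h5⟩
        · rintro ⟨h4, h5⟩
          exact ⟨hC.2 (mem_inter.2 ⟨h4, h5⟩), h5⟩
      rw [← h3, union_comm, sdiff_union_inter]
    · intro C hC
      rw [mem_powerset] at hC
      have hd : Disjoint C U := disjoint_of_subset_left hC sdiff_disjoint
      have h3 : ((B ∩ U) ∪ C) ∩ U = B ∩ U := by
        rw [union_inter_distrib_right, inter_assoc, inter_self, disjoint_iff_inter_eq_empty.1 hd,
          union_empty]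
      have h4 : ((B ∩ U) ∪ C) \ U = C := by
        rw [union_sdiff_distrib, sdiff_eq_self_of_disjoint hd]
        have h5 : (B ∩ U) \ U = ∅ := by
          rw [sdiff_eq_empty_iff_subset]
          exact inter_subset_right
        rw [h5, empty_union]
      have h6 : B \ ((B ∩ U) ∪ C) = (B \ U) \ C := by
        ext j
        simp only [mem_sdiff, mem_union, mem_inter, not_or, not_and]
        constructor
        · rintro ⟨h7, h8, h9⟩
          exact ⟨⟨h7, h8 h7⟩, h9⟩
        · rintro ⟨⟨h7, h8⟩, h9⟩
          exact ⟨h7, fun _ => h8, h9⟩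
      simp only [h']
      rw [h3, if_neg hBU, h4, h6]

end Vale.Agent.P042.H422
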